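import Vale.Agent.P197.SymChar

/-!
# Integral forms of Specht modules

Every `chi (beta p)` is the trace of a representation by integer matrices.
-/

open Finset Equiv

namespace Vale.Agent.P197

open SymChar

variable {n : ℕ}

/-- The Young symmetrizer over `ℤ`. -/
noncomputable def youngSymZ (T : Fin n → Fin n) : MonoidAlgebra ℤ (Perm (Fin n)) :=
  (∑ r ∈ stab T, MonoidAlgebra.single r 1) *
    ∑ c ∈ ({π | colOf T ∘ π = colOf T} : Finset (Perm (Fin n))),
      MonoidAlgebra.single c (Perm.sign c : ℤ)

/-- Extension of scalars from `ℤ[S_n]` to `ℂ[S_n]`. -/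
noncomputable def castGA (n : ℕ) : MonoidAlgebra ℤ (Perm (Fin n)) →+* GA n :=
  MonoidAlgebra.mapRingHom _ (Int.castRingHom ℂ)

lemma castGA_youngSymZ (T : Fin n → Fin n) : castGA n (youngSymZ T) = youngSym T := by
  simp [castGA, youngSymZ, youngSym, rowSym, colSym, map_sum, MonoidAlgebra.map_single]

lemma castGA_smul (m : ℤ) (x : MonoidAlgebra ℤ (Perm (Fin n))) :
    castGA n (m • x) = (m : ℂ) • castGA n x := by
  rw [map_zsmul, Int.cast_smul_eq_zsmul]

/-- The left ideal `ℂ[S_n] * y`. -/
noncomputable def spanRep (y : GA n) : Subrepresentation (regRep n) where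
  toSubmodule := Submodule.span ℂ (Set.range fun g => MonoidAlgebra.single g 1 * y)
  apply_mem_toSubmodule g v hv := by
    induction hv using Submodule.span_induction with
    | mem x hx =>
      obtain ⟨h, rfl⟩ := hx
      refine Submodule.subset_span ⟨g * h, ?_⟩
      simp [regRep, ← mul_assoc, MonoidAlgebra.single_mul_single]
    | zero => simp
    | add x y _ _ hx hy => rw [map_add]; exact add_mem hx hy
    | smul c x _ hx => rw [map_smul]; exact Submodule.smul_mem _ c hx

/-- The lattice `ℤ[S_n] * y`. -/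
noncomputable def spanLattice (y : MonoidAlgebra ℤ (Perm (Fin n))) :
    Submodule ℤ (MonoidAlgebra ℤ (Perm (Fin n))) :=
  Submodule.span ℤ (Set.range fun g => MonoidAlgebra.single g 1 * y)

lemma mul_mem_spanLattice (y : MonoidAlgebra ℤ (Perm (Fin n))) (g : Perm (Fin n))
    (x : MonoidAlgebra ℤ (Perm (Fin n))) (hx : x ∈ spanLattice y) :
    MonoidAlgebra.single g 1 * x ∈ spanLattice y := by
  induction hx using Submodule.span_induction with
  | mem x hx =>
    obtain ⟨h, rfl⟩ := hx
    exact Submodule.subset_span ⟨g * h, by simp [← mul_assoc, MonoidAlgebra.single_mul_single]⟩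
  | zero => simp
  | add x y _ _ hx hy => rw [mul_add]; exact add_mem hx hy
  | smul c x _ hx => rw [mul_smul_comm]; exact Submodule.smul_mem _ c hx

/-- Left multiplication on the lattice. -/
noncomputable def latticeAct (y : MonoidAlgebra ℤ (Perm (Fin n))) :
    Perm (Fin n) →* Module.End ℤ (spanLattice y) where
  toFun g := (LinearMap.mulLeft ℤ (MonoidAlgebra.single g 1)).restrict
    fun x hx => mul_mem_spanLattice y g x hx
  map_one' := by ext x; simp [← MonoidAlgebra.one_def]
  map_mul' g h := by
    refine LinearMap.ext fun x => Subtype.ext ?_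
    show MonoidAlgebra.single (g * h) (1 : ℤ) * x.1 =
      MonoidAlgebra.single g 1 * (MonoidAlgebra.single h 1 * x.1)
    rw [← mul_assoc, MonoidAlgebra.single_mul_single, one_mul]

/-- A basis of `ℤ[S_n] * y` gives integral matrices with the character of `ℂ[S_n] * y`. -/
theorem exists_latticeForm (y : MonoidAlgebra ℤ (Perm (Fin n))) :
    ∃ (d : ℕ) (S : Perm (Fin n) →* Matrix (Fin d) (Fin d) ℤ)
      (b : Fin d → MonoidAlgebra ℤ (Perm (Fin n))),
      (∀ g, ((Matrix.trace (S g) : ℤ) : ℂ) =
        (spanRep (castGA n y)).toRepresentation.character g) ∧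
      (∀ g j, MonoidAlgebra.single g 1 * b j = ∑ i, S g i j • b i) ∧
      (∀ i, b i ∈ spanLattice y) ∧ y ∈ Submodule.span ℤ (Set.range b) ∧
      LinearIndependent ℤ b := by
  classical
  have : Module.Free ℤ (MonoidAlgebra ℤ (Perm (Fin n))) :=
    Module.Free.of_equiv (MonoidAlgebra.coeffLinearEquiv ℤ).symm
  have : Module.Finite ℤ (spanLattice y) :=
    Module.Finite.iff_fg.mpr (Submodule.fg_span (Set.finite_range _))
  have : Module.IsTorsionFree ℤ (spanLattice y) := inferInstance
  obtain ⟨d, b⟩ := Module.basisOfFiniteTypeTorsionFree'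
    (R := ℤ) (M := spanLattice y)
  let S : Perm (Fin n) →* Matrix (Fin d) (Fin d) ℤ :=
    (LinearMap.toMatrixAlgEquiv b).toAlgHom.toRingHom.toMonoidHom.comp (latticeAct y)
  have hact : ∀ g j, MonoidAlgebra.single g 1 * (b j : MonoidAlgebra ℤ (Perm (Fin n))) =
      ∑ i, S g i j • (b i : MonoidAlgebra ℤ (Perm (Fin n))) := by
    intro g j
    show ((latticeAct y g (b j) : spanLattice y) : MonoidAlgebra ℤ (Perm (Fin n))) = _
    conv_lhs => rw [← b.sum_repr (latticeAct y g (b j))]
    rw [Submodule.coe_sum]
    refine sum_congr rfl fun i _ => ?_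
    rw [Submodule.coe_smul]
    congr 1
    exact (LinearMap.toMatrixAlgEquiv_apply b (latticeAct y g) i j).symm
  have hy : y ∈ spanLattice y := Submodule.subset_span ⟨1, by simp [← MonoidAlgebra.one_def]⟩
  refine ⟨d, S, fun i => b i, fun g => ?_, hact, fun i => (b i).2, ?_,
    b.linearIndependent.map' (spanLattice y).subtype (Submodule.ker_subtype _)⟩
  swap
  · have h := congrArg Subtype.val (b.sum_repr ⟨y, hy⟩)
    rw [Submodule.coe_sum] at h
    refine (congrArg (· ∈ Submodule.span ℤ (Set.range fun i =>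
      (b i : MonoidAlgebra ℤ (Perm (Fin n))))) h).mp ?_
    exact Submodule.sum_mem _ fun i _ =>
      Submodule.smul_mem _ _ (Submodule.subset_span ⟨i, rfl⟩)
  let x : Fin d → GA n := fun i => castGA n (b i : MonoidAlgebra ℤ (Perm (Fin n)))
  have hli : LinearIndependent ℂ x := by
    have h0 : LinearIndependent ℤ fun i : Fin d =>
        (⇑(b i : MonoidAlgebra ℤ (Perm (Fin n))).coeff : Perm (Fin n) → ℤ) :=
      b.linearIndependent.map' ((Finsupp.linearEquivFunOnFinite ℤ ℤ _).toLinearMap ∘ₗ
        (MonoidAlgebra.coeffLinearEquiv ℤ).toLinearMap ∘ₗ (spanLattice y).subtype)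
        (LinearMap.ker_eq_bot.mpr ((Finsupp.linearEquivFunOnFinite ℤ ℤ _).injective.comp
          ((MonoidAlgebra.coeffLinearEquiv ℤ).injective.comp Subtype.val_injective)))
    refine LinearIndependent.of_comp ((Finsupp.linearEquivFunOnFinite ℂ ℂ _).toLinearMap ∘ₗ
      (MonoidAlgebra.coeffLinearEquiv ℂ).toLinearMap) ?_
    exact (linearIndependent_algebraMap_comp_iff (R := ℤ) (S := ℂ)).mpr h0
  have h2 : ∀ h : Perm (Fin n),
      castGA n (MonoidAlgebra.single h 1) = MonoidAlgebra.single h 1 := fun h => by simp [castGA]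
  have hmem : ∀ z ∈ spanLattice y, castGA n z ∈ (spanRep (castGA n y)).toSubmodule := by
    intro z hz
    induction hz using Submodule.span_induction with
    | mem z hz =>
      obtain ⟨h, rfl⟩ := hz
      exact Submodule.subset_span ⟨h, by simp only [map_mul, h2]⟩
    | zero => simp
    | add z w _ _ hz hw => rw [map_add]; exact add_mem hz hw
    | smul c z _ hz => rw [castGA_smul]; exact Submodule.smul_mem _ _ hz
  have hrepr : ∀ z : spanLattice y, castGA n (z : MonoidAlgebra ℤ (Perm (Fin n))) =
      ∑ i, (b.repr z i : ℂ) • x i := by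
    intro z
    conv_lhs => rw [← b.sum_repr z]
    simp only [Submodule.coe_sum, Submodule.coe_smul, map_sum, castGA_smul]
    rfl
  let x' : Fin d → (spanRep (castGA n y)).toSubmodule := fun i => ⟨x i, hmem _ (b i).2⟩
  have hli' : LinearIndependent ℂ x' := LinearIndependent.of_comp (Submodule.subtype _) hli
  have hsp : ⊤ ≤ Submodule.span ℂ (Set.range x') := by
    rintro ⟨v, hv⟩ -
    have hle : (spanRep (castGA n y)).toSubmodule ≤ Submodule.span ℂ (Set.range x) := by
      refine Submodule.span_le.mpr ?_
      rintro _ ⟨h, rfl⟩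
      have h1 := hrepr ⟨_, Submodule.subset_span ⟨h, rfl⟩⟩
      simp only [map_mul, h2] at h1
      simp only [SetLike.mem_coe]
      rw [h1]
      exact Submodule.sum_mem _ fun i _ =>
        Submodule.smul_mem _ _ (Submodule.subset_span ⟨i, rfl⟩)
    obtain ⟨c, hc⟩ := Submodule.mem_span_range_iff_exists_fun ℂ |>.mp (hle hv)
    exact (Submodule.mem_span_range_iff_exists_fun ℂ).mpr
      ⟨c, Subtype.ext (by simpa [x'] using hc)⟩
  let B : Module.Basis (Fin d) ℂ (spanRep (castGA n y)).toSubmodule := Module.Basis.mk hli' hsp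
  have hM : LinearMap.toMatrix B B ((spanRep (castGA n y)).toRepresentation g) =
      (S g).map (Int.castRingHom ℂ) := by
    have hj : ∀ j, (spanRep (castGA n y)).toRepresentation g (B j) =
        ∑ i, ((S g i j : ℤ) : ℂ) • B i := by
      intro j
      apply Subtype.ext
      simp only [B, Module.Basis.mk_apply, Submodule.coe_sum, Submodule.coe_smul, x']
      show MonoidAlgebra.single g (1 : ℂ) * x j = _
      rw [← h2, ← map_mul, hact, map_sum]
      simp only [castGA_smul]
      rfl
    ext i j
    rw [LinearMap.toMatrix_apply, hj, B.repr_sum_self]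
    rfl
  rw [Representation.character, LinearMap.trace_eq_matrix_trace ℂ B, hM]
  simp [Matrix.trace]

/-- Every irreducible character of `S_n` is the trace of an integral matrix representation. -/
theorem exists_intForm (p : n.Partition) :
    ∃ (d : ℕ) (S : Perm (Fin n) →* Matrix (Fin d) (Fin d) ℤ),
      ∀ g, Matrix.trace (S g) = chi (beta p) g := by
  obtain ⟨d, S, -, hS, -⟩ := exists_latticeForm (youngSymZ (tableau p))
  refine ⟨d, S, fun g => ?_⟩
  have h := hS g
  rw [castGA_youngSymZ] at h
  have h2 := h.trans (congrFun (spechtRep_character p) g)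
  simp only [chiP, chiC] at h2
  exact_mod_cast h2

end Vale.Agent.P197
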