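import Vale.Agent.P197.Littlewood.Formula
import Vale.Agent.P197.Littlewood.Induced
import Vale.Agent.P197.Lattice

/-!
# The lattice of the 2-quotient

For an involution `τ` with `k` pairs and `f` fixed points, the signed count of `τ`-fixed colourings
fixed by a centralising element is, up to a sign, the trace of the lattice
`Ind (S^α ⊗ S^β) ⊗ S^core`.
-/

open Finset Equiv Matrix
open scoped Kronecker

namespace Vale.Agent.P197.Littlewood

open SymChar

/-- An integral form for the character of a beta set. -/
theorem exists_form {m k : ℕ} (A : Fin m → ℤ) (hA : IsBeta k A) :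
    ∃ (d : ℕ) (S : Perm (Fin k) →* Matrix (Fin d) (Fin d) ℤ), ∀ g, (S g).trace = chi A g := by
  have hA' : IsBeta (Fintype.card (Fin k)) A := by rwa [Fintype.card_fin]
  obtain ⟨q, hq⟩ := exists_chiP_eq (chiC_mem_irrSet (α := Fin k) hA')
  obtain ⟨d, S, hS⟩ := exists_intForm q
  refine ⟨d, S, fun g => ?_⟩
  have h := congrFun hq g
  simp only [chiP, chiC] at h
  rw [hS g]
  exact_mod_cast h

/-- Sorting a beta set costs a sign. -/
theorem exists_form_join {n₀ n₁ N f : ℕ} (e : Fin n₀ ⊕ Fin n₁ ≃ Fin N)
    (hf : ∑ i, join e (delta n₀) (delta n₁) i = ∑ i, delta N i + f) :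
    ∃ (d : ℕ) (S : Perm (Fin f) →* Matrix (Fin d) (Fin d) ℤ) (ε : ℤ), ε * ε = 1 ∧
      ∀ g, (S g).trace = ε * chi (join e (delta n₀) (delta n₁)) g := by
  set a := join e (delta n₀) (delta n₁)
  have hinj : Function.Injective a := by
    intro x y h
    obtain ⟨x, rfl⟩ := e.surjective x
    obtain ⟨y, rfl⟩ := e.surjective y
    cases x <;> cases y <;> simp [a, join, delta] at h <;>
      first
        | (exact congrArg e (by simp; exact Fin.ext (by omega)))
        | omega
  have hpos : ∀ x, 0 ≤ a x := by
    intro x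
    obtain ⟨x, rfl⟩ := e.surjective x
    cases x with
    | inl i => have := delta_nonneg i; simp [a, join]; omega
    | inr i => have := delta_nonneg i; simp [a, join]; omega
  set w := Tuple.sort fun i => -a i
  have hB : IsBeta f (a ∘ w) := ⟨fun i j hij => by
      have h1 : -a (w i) ≤ -a (w j) := Tuple.monotone_sort (fun i => -a i) hij.le
      have h2 : a (w i) ≠ a (w j) := fun h => hij.ne (w.injective (hinj h))
      show a (w j) < a (w i)
      omega,
    fun i => hpos _, (Equiv.sum_comp w a).trans (hf.trans (add_comm _ _))⟩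
  obtain ⟨d, S, hS⟩ := exists_form _ hB
  refine ⟨d, S, Perm.sign w, ?_, fun g => by rw [hS g, chi_perm]⟩
  rcases Int.units_eq_one_or (Perm.sign w) with h | h <;> rw [h] <;> rfl

variable {k f n ka kb : ℕ}

/-- The embedding of the Young subgroup. -/
def youngHom (ka kb : ℕ) : Perm (Fin ka) × Perm (Fin kb) →* Perm (Fin (ka + kb)) :=
  finSumFinEquiv.permCongrHom.toMonoidHom.comp (Perm.sumCongrHom (Fin ka) (Fin kb))

lemma youngHom_injective (ka kb : ℕ) : Function.Injective (youngHom ka kb) :=
  finSumFinEquiv.permCongrHom.injective.comp Perm.sumCongrHom_injective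

/-- The product of two matrix representations on the Young subgroup. -/
noncomputable def youngRep {dA dB : ℕ} (SA : Perm (Fin ka) →* Matrix (Fin dA) (Fin dA) ℤ)
    (SB : Perm (Fin kb) →* Matrix (Fin dB) (Fin dB) ℤ) :
    (youngHom ka kb).range →* Matrix (Fin dA × Fin dB) (Fin dA × Fin dB) ℤ where
  toFun h :=
    SA ((MonoidHom.ofInjective (youngHom_injective ka kb)).symm h).1 ⊗ₖ
      SB ((MonoidHom.ofInjective (youngHom_injective ka kb)).symm h).2
  map_one' := by simp
  map_mul' g h := by simp [Matrix.mul_kronecker_mul]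

/-- The first block. -/
def block (ka kb : ℕ) : Finset (Fin (ka + kb)) :=
  univ.image fun i : Fin ka => finSumFinEquiv (.inl i)

lemma mem_block {x : Fin (ka + kb)} : x ∈ block ka kb ↔ ∃ i, finSumFinEquiv (.inl i) = x := by
  simp [block]

lemma inl_mem_block (i : Fin ka) : finSumFinEquiv (.inl i) ∈ block ka kb :=
  mem_block.mpr ⟨i, rfl⟩

lemma inr_notMem_block (j : Fin kb) : finSumFinEquiv (.inr j) ∉ block ka kb := by
  rw [mem_block]
  rintro ⟨i, hi⟩
  exact Sum.inl_ne_inr (finSumFinEquiv.injective hi)

/-- The trace of the induced product is the sum over splittings. -/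
theorem trace_induced_young {m₀ m₁ dA dB : ℕ} {A : Fin m₀ → ℤ} {B : Fin m₁ → ℤ}
    (hA : ∑ i, A i = ∑ i, delta m₀ i + ka)
    (SA : Perm (Fin ka) →* Matrix (Fin dA) (Fin dA) ℤ) (hSA : ∀ g, (SA g).trace = chi A g)
    (SB : Perm (Fin kb) →* Matrix (Fin dB) (Fin dB) ℤ) (hSB : ∀ g, (SB g).trace = chi B g)
    [DecidableEq (Perm (Fin (ka + kb)) ⧸ (youngHom ka kb).range)]
    [Fintype (Perm (Fin (ka + kb)) ⧸ (youngHom ka kb).range)] (σ : Perm (Fin (ka + kb))) :
    (induced (youngHom ka kb).range (youngRep SA SB) σ).trace = splitSum A B σ := by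
  classical
  rw [trace_induced, splitSum]
  let P : Perm (Fin (ka + kb)) ⧸ (youngHom ka kb).range → Finset (Fin (ka + kb)) :=
    fun q => (block ka kb).map q.out.toEmbedding
  have hmem : ∀ q x, x ∈ P q ↔ q.out.symm x ∈ block ka kb := fun q x => by
    simp [P, Finset.mem_map_equiv]
  have hH : ∀ π : Perm (Fin (ka + kb)), π ∈ (youngHom ka kb).range ↔
      ∀ x, π x ∈ block ka kb ↔ x ∈ block ka kb := by
    intro π
    constructor
    · rintro ⟨⟨u, v⟩, rfl⟩ x
      obtain ⟨y, rfl⟩ := (finSumFinEquiv (m := ka) (n := kb)).surjective x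
      cases y <;> simp [youngHom, Equiv.permCongr_apply, inl_mem_block, inr_notMem_block,
        -finSumFinEquiv_apply_left, -finSumFinEquiv_apply_right]
    · intro h
      obtain ⟨⟨u, v⟩, huv⟩ : (finSumFinEquiv.symm.permCongr π) ∈
          (Perm.sumCongrHom (Fin ka) (Fin kb)).range := by
        refine Perm.mem_sumCongrHom_range_of_perm_mapsTo_inl ?_
        rintro _ ⟨i, rfl⟩
        obtain ⟨j, hj⟩ := mem_block.mp ((h _).mpr (mem_block.mpr ⟨i, rfl⟩))
        exact ⟨j, by rw [Equiv.permCongr_apply, Equiv.symm_symm, ← hj, Equiv.symm_apply_apply]⟩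
      refine ⟨(u, v), ?_⟩
      ext x
      simp [youngHom, huv, Equiv.permCongr_apply]
  have hfix : ∀ q, σ • q = q ↔ ∀ x, σ x ∈ P q ↔ x ∈ P q := by
    intro q
    have h1 : σ • q = q ↔ q.out⁻¹ * (σ * q.out) ∈ (youngHom ka kb).range := by
      rw [← QuotientGroup.eq, QuotientGroup.out_eq', ← smul_eq_mul,
        ← MulAction.Quotient.smul_mk, QuotientGroup.out_eq', eq_comm]
    rw [h1, hH]
    constructor <;> intro h x
    · rw [hmem, hmem]; simpa [Perm.inv_def] using h (q.out.symm x)
    · simpa [hmem, Perm.inv_def] using h (q.out x)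
  refine Eq.trans ?_ (sum_filter_of_ne (s := univ) (p := fun Q : Finset (Fin (ka + kb)) => #Q = ka)
    fun Q _ hne => ?_)
  swap
  · by_contra hc
    refine hne ?_
    split_ifs with h
    · rw [chi_eq_zero_of_sum_ne A, zero_mul]
      simp only [Fintype.card_coe, hA]
      omega
    · rfl
  have hcard : #(block ka kb) = ka := by
    rw [block, card_image_of_injective, card_univ, Fintype.card_fin]
    exact finSumFinEquiv.injective.comp Sum.inl_injective
  refine Finset.sum_bij (fun q _ => P q) ?_ ?_ ?_ ?_
  · intro q _; simp [P, hcard]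
  · intro q _ q' _ h
    rw [← QuotientGroup.out_eq' q, ← QuotientGroup.out_eq' q', QuotientGroup.eq, hH]
    intro x
    have := Finset.ext_iff.mp h (q'.out x)
    simp only [hmem, Equiv.symm_apply_apply] at this
    simpa [Perm.inv_def] using this
  · intro Q hQ
    simp only [mem_filter, mem_univ, true_and] at hQ
    obtain ⟨π, hπ⟩ : ∃ π : Perm (Fin (ka + kb)), (block ka kb).map π.toEmbedding = Q := by
      have e1 : {x // x ∈ block ka kb} ≃ {x // x ∈ Q} := Fintype.equivOfCardEq (by simp [hcard, hQ])
      refine ⟨e1.extendSubtype, Finset.eq_of_subset_of_card_le ?_ (by simp [hcard, hQ])⟩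
      intro y hy
      obtain ⟨x, hx, rfl⟩ := Finset.mem_map.mp hy
      exact e1.extendSubtype_mem x hx
    refine ⟨QuotientGroup.mk π, mem_univ _, ?_⟩
    obtain ⟨h, hh⟩ := QuotientGroup.mk_out_eq_mul (youngHom ka kb).range π
    rw [← hπ]
    ext x
    rw [hmem, hh, Finset.mem_map_equiv]
    have := ((hH _).mp h.2) ((π * h).symm x)
    simp only [Perm.mul_def, Equiv.symm_trans_apply, Equiv.apply_symm_apply] at this ⊢
    exact this.symm
  · intro q _
    by_cases h : σ • q = q
    swap
    · rw [dif_neg h, dif_neg (mt (hfix q).mpr h)]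
    rw [dif_pos h, dif_pos ((hfix q).mp h)]
    obtain ⟨⟨u, v⟩, huv⟩ := rep_mem _ h
    have hyoung : (MonoidHom.ofInjective (youngHom_injective ka kb)).symm ⟨_, rep_mem _ h⟩ =
        (u, v) := by
      rw [MulEquiv.symm_apply_eq]
      exact Subtype.ext huv.symm
    show (SA _ ⊗ₖ SB _).trace = _
    rw [hyoung, Matrix.trace_kronecker, hSA, hSB]
    have hval : ∀ y, q.out (finSumFinEquiv (Sum.map u v y)) = σ (q.out (finSumFinEquiv y)) := by
      intro y
      have := congrArg (fun π : Perm (Fin (ka + kb)) => q.out (π (finSumFinEquiv y))) huv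
      cases y <;> simpa [youngHom, Equiv.permCongr_apply, Perm.inv_def] using this
    let ψA : Fin ka ≃ {x // x ∈ P q} := Equiv.ofBijective
      (fun i => ⟨q.out (finSumFinEquiv (.inl i)), by
        rw [hmem, Equiv.symm_apply_apply]; exact inl_mem_block i⟩)
      ⟨fun i j h => Sum.inl_injective (finSumFinEquiv.injective (q.out.injective
        (congrArg Subtype.val h))), fun x => by
        obtain ⟨i, hi⟩ := mem_block.mp ((hmem q x.1).mp x.2)
        exact ⟨i, Subtype.ext (by show q.out _ = _; rw [hi, Equiv.apply_symm_apply])⟩⟩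
    let ψB : Fin kb ≃ {x // x ∉ P q} := Equiv.ofBijective
      (fun i => ⟨q.out (finSumFinEquiv (.inr i)), by
        rw [hmem, Equiv.symm_apply_apply]; exact inr_notMem_block i⟩)
      ⟨fun i j h => Sum.inr_injective (finSumFinEquiv.injective (q.out.injective
        (congrArg Subtype.val h))), fun x => by
        obtain ⟨y, hy⟩ := (finSumFinEquiv (m := ka) (n := kb)).surjective (q.out.symm x.1)
        cases y with
        | inl i => exact absurd ((hmem q x.1).mpr (mem_block.mpr ⟨i, hy⟩)) x.2
        | inr i => exact ⟨i, Subtype.ext (by show q.out _ = _; rw [hy, Equiv.apply_symm_apply])⟩⟩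
    congr 1
    · rw [← chi_permCongr A ψA]
      congr 1
      ext x
      obtain ⟨i, rfl⟩ := ψA.surjective x
      simp only [Equiv.permCongr_apply, Equiv.symm_apply_apply]
      simpa [ψA] using congrArg Fin.val (hval (.inl i))
    · rw [← chi_permCongr B ψB]
      congr 1
      ext x
      obtain ⟨i, rfl⟩ := ψB.surjective x
      simp only [Equiv.permCongr_apply, Equiv.symm_apply_apply]
      simpa [ψB] using congrArg Fin.val (hval (.inr i))

/-- The involution swapping each pair. -/
def pairInv (e : (Fin k × Bool) ⊕ Fin f ≃ Fin n) : Perm (Fin n) :=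
  e.permCongr (Perm.sumCongr (Equiv.prodCongr (Equiv.refl _) Equiv.boolNot) 1)

variable (e : (Fin k × Bool) ⊕ Fin f ≃ Fin n)

lemma pairInv_inl (x : Fin k) (b : Bool) : pairInv e (e (.inl (x, b))) = e (.inl (x, !b)) := by
  simp [pairInv, Equiv.permCongr_apply]

lemma pairInv_inr (y : Fin f) : pairInv e (e (.inr y)) = e (.inr y) := by
  simp [pairInv, Equiv.permCongr_apply]

lemma pairInv_sq : pairInv e * pairInv e = 1 := by
  ext z
  obtain ⟨y, rfl⟩ := e.surjective z
  rcases y with ⟨x, b⟩ | y <;> simp [pairInv, Equiv.permCongr_apply]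

/-- The pair containing the image of a pair. -/
def pairImage (c : Perm (Fin n)) (x : Fin k) : Fin k :=
  Sum.elim Prod.fst (fun _ => x) (e.symm (c (e (.inl (x, false)))))

/-- The image of a single cell. -/
def singleImage (c : Perm (Fin n)) (y : Fin f) : Fin f :=
  Sum.elim (fun _ => y) id (e.symm (c (e (.inr y))))

variable {e}

lemma centraliser_apply {c : Perm (Fin n)} (hc : pairInv e * c = c * pairInv e) :
    (∀ x b, ∃ b', c (e (.inl (x, b))) = e (.inl (pairImage e c x, b'))) ∧
      ∀ y, c (e (.inr y)) = e (.inr (singleImage e c y)) := by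
  have hcomm : ∀ z, pairInv e (c z) = c (pairInv e z) := fun z => Equiv.Perm.congr_fun hc z
  constructor
  · intro x b
    obtain ⟨z, hz⟩ := e.surjective (c (e (.inl (x, false))))
    rcases z with ⟨x', b'⟩ | y
    · have hx : pairImage e c x = x' := by simp [pairImage, ← hz]
      rw [hx]
      cases b
      · exact ⟨b', hz.symm⟩
      · refine ⟨!b', ?_⟩
        have := hcomm (e (.inl (x, false)))
        rw [← hz, pairInv_inl, pairInv_inl] at this
        exact this.symm
    · exfalso
      have := hcomm (e (.inl (x, false)))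
      rw [← hz, pairInv_inr, hz, pairInv_inl] at this
      simpa using c.injective this
  · intro y
    obtain ⟨z, hz⟩ := e.surjective (c (e (.inr y)))
    rcases z with ⟨x', b'⟩ | y'
    · exfalso
      have := hcomm (e (.inr y))
      rw [← hz, pairInv_inl, pairInv_inr, ← hz] at this
      simpa using e.injective this
    · rw [← hz]; simp [singleImage, ← hz]

lemma image_mul {c d : Perm (Fin n)} (hc : pairInv e * c = c * pairInv e)
    (hd : pairInv e * d = d * pairInv e) :
    (∀ x, pairImage e (c * d) x = pairImage e c (pairImage e d x)) ∧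
      ∀ y, singleImage e (c * d) y = singleImage e c (singleImage e d y) := by
  constructor
  · intro x
    obtain ⟨b, hb⟩ := (centraliser_apply hd).1 x false
    obtain ⟨b', hb'⟩ := (centraliser_apply hc).1 (pairImage e d x) b
    conv_lhs => unfold pairImage
    simp [hb, hb']
  · intro y
    conv_lhs => unfold singleImage
    simp [(centraliser_apply hd).2, (centraliser_apply hc).2]

/-- The action of the centraliser on pairs and on single cells. -/
def centraliserHom (C : Subgroup (Perm (Fin n)))
    (hC : ∀ g ∈ C, pairInv e * g = g * pairInv e) : C →* Perm (Fin k) × Perm (Fin f) where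
  toFun c :=
    ({ toFun := pairImage e c
       invFun := pairImage e ((c⁻¹ : C) : Perm (Fin n))
       left_inv := fun x => by
         rw [← (image_mul (hC _ (c⁻¹ : C).2) (hC _ c.2)).1, ← Subgroup.coe_mul, inv_mul_cancel]
         simp [pairImage]
       right_inv := fun x => by
         rw [← (image_mul (hC _ c.2) (hC _ (c⁻¹ : C).2)).1, ← Subgroup.coe_mul, mul_inv_cancel]
         simp [pairImage] },
     { toFun := singleImage e c
       invFun := singleImage e ((c⁻¹ : C) : Perm (Fin n))
       left_inv := fun x => by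
         rw [← (image_mul (hC _ (c⁻¹ : C).2) (hC _ c.2)).2, ← Subgroup.coe_mul, inv_mul_cancel]
         simp [singleImage]
       right_inv := fun x => by
         rw [← (image_mul (hC _ c.2) (hC _ (c⁻¹ : C).2)).2, ← Subgroup.coe_mul, mul_inv_cancel]
         simp [singleImage] })
  map_one' := by
    ext x <;> simp [pairImage, singleImage]
  map_mul' c d := by
    refine Prod.ext ?_ ?_ <;> ext x
    · exact congrArg Fin.val ((image_mul (hC _ c.2) (hC _ d.2)).1 x)
    · exact congrArg Fin.val ((image_mul (hC _ c.2) (hC _ d.2)).2 x)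

/-- Colourings fixed by the involution and by a centralising element. -/
lemma sum_fixed_eq {N : ℕ} (a : Fin N → ℤ) (C : Subgroup (Perm (Fin n)))
    (hC : ∀ g ∈ C, pairInv e * g = g * pairInv e) (c : C) :
    (∑ fl ∈ fixedCol N (pairInv e),
      if fl ∘ ((c : Perm (Fin n))) = fl then eps a (cnt fl) else 0) =
      ∑ g ∈ fixedCol N (centraliserHom C hC c).1, ∑ h ∈ fixedCol N (centraliserHom C hC c).2,
        eps a (fun j => 2 * cnt g j + cnt h j) := by
  rw [← sum_filter, ← sum_product']
  have hp : ∀ x, (centraliserHom C hC c).1 x = pairImage e c x := fun x => rfl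
  have hs : ∀ y, (centraliserHom C hC c).2 y = singleImage e c y := fun y => rfl
  refine Finset.sum_bij' (fun fl _ => (fun x => fl (e (.inl (x, false))), fun y => fl (e (.inr y))))
    (fun q _ => pairFun q.1 q.2 ∘ e.symm) ?_ ?_ ?_ ?_ ?_
  · intro fl hfl
    simp only [mem_filter, mem_fixedCol] at hfl
    simp only [mem_product, mem_fixedCol]
    constructor <;> funext x
    · obtain ⟨b, hb⟩ := (centraliser_apply (hC _ c.2)).1 x false
      have h1 := congrFun hfl.2 (e (.inl (x, false)))
      simp only [Function.comp_apply, hb] at h1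
      cases b
      · simp only [Function.comp_apply, hp, h1]
      · have h2 := congrFun hfl.1 (e (.inl (pairImage e c x, false)))
        simp only [Function.comp_apply, pairInv_inl, Bool.not_false] at h2
        simp only [Function.comp_apply, hp, ← h2, h1]
    · have h1 := congrFun hfl.2 (e (.inr x))
      simp only [Function.comp_apply, (centraliser_apply (hC _ c.2)).2] at h1
      simp only [Function.comp_apply, hs, h1]
  · intro q hq
    simp only [mem_product, mem_fixedCol] at hq
    simp only [mem_filter, mem_fixedCol]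
    constructor <;> funext z <;> obtain ⟨z, rfl⟩ := e.surjective z <;> rcases z with ⟨x, b⟩ | y
    · simp [pairInv_inl, pairFun]
    · simp [pairInv_inr, pairFun]
    · obtain ⟨b', hb'⟩ := (centraliser_apply (hC _ c.2)).1 x b
      have := congrFun hq.1 x
      simp only [Function.comp_apply, hp] at this
      simp [hb', pairFun, this]
    · have := congrFun hq.2 y
      simp only [Function.comp_apply, hs] at this
      simp [(centraliser_apply (hC _ c.2)).2, pairFun, this]
  · intro fl hfl
    simp only [mem_filter, mem_fixedCol] at hfl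
    funext z
    obtain ⟨z, rfl⟩ := e.surjective z
    rcases z with ⟨x, b⟩ | y
    · cases b
      · simp [pairFun]
      · have h2 := congrFun hfl.1 (e (.inl (x, false)))
        simp only [Function.comp_apply, pairInv_inl, Bool.not_false] at h2
        simp [pairFun, h2]
    · simp [pairFun]
  · intro q _
    simp [pairFun]
  · intro fl hfl
    simp only [mem_filter, mem_fixedCol] at hfl
    congr 1
    funext j
    rw [← cnt_pairFun, ← cnt_comp_equiv fl e]
    congr 1
    funext z
    rcases z with ⟨x, b⟩ | y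
    · cases b
      · simp [pairFun]
      · have h2 := congrFun hfl.1 (e (.inl (x, false)))
        simp only [Function.comp_apply, pairInv_inl, Bool.not_false] at h2
        simp [pairFun, h2]
    · simp [pairFun]

section Lattice

variable {dA dB dC : ℕ}

/-- `Ind (S^α ⊗ S^β) ⊗ S^core` as a representation of the centraliser. -/
noncomputable def quotientRep {e : (Fin (ka + kb) × Bool) ⊕ Fin f ≃ Fin n}
    (C : Subgroup (Perm (Fin n))) (hC : ∀ g ∈ C, pairInv e * g = g * pairInv e)
    (SA : Perm (Fin ka) →* Matrix (Fin dA) (Fin dA) ℤ)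
    (SB : Perm (Fin kb) →* Matrix (Fin dB) (Fin dB) ℤ)
    (SC : Perm (Fin f) →* Matrix (Fin dC) (Fin dC) ℤ)
    [Fintype (Perm (Fin (ka + kb)) ⧸ (youngHom ka kb).range)]
    [DecidableEq (Perm (Fin (ka + kb)) ⧸ (youngHom ka kb).range)] :
    C →* Matrix (((Perm (Fin (ka + kb)) ⧸ (youngHom ka kb).range) × (Fin dA × Fin dB)) × Fin dC)
      (((Perm (Fin (ka + kb)) ⧸ (youngHom ka kb).range) × (Fin dA × Fin dB)) × Fin dC) ℤ where
  toFun c := induced _ (youngRep SA SB) (centraliserHom C hC c).1 ⊗ₖ SC (centraliserHom C hC c).2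
  map_one' := by simp
  map_mul' c d := by simp [Matrix.mul_kronecker_mul]

/-- Its trace is the signed count of fixed colourings. -/
theorem trace_quotientRep {N n₀ n₁ : ℕ} {e : (Fin (ka + kb) × Bool) ⊕ Fin f ≃ Fin n}
    (C : Subgroup (Perm (Fin n))) (hC : ∀ g ∈ C, pairInv e * g = g * pairInv e)
    (e' : Fin n₀ ⊕ Fin n₁ ≃ Fin N) {A : Fin n₀ → ℤ} {B : Fin n₁ → ℤ}
    (hA : IsBeta ka A) (hB : IsBeta kb B)
    (SA : Perm (Fin ka) →* Matrix (Fin dA) (Fin dA) ℤ) (hSA : ∀ g, (SA g).trace = chi A g)
    (SB : Perm (Fin kb) →* Matrix (Fin dB) (Fin dB) ℤ) (hSB : ∀ g, (SB g).trace = chi B g)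
    (SC : Perm (Fin f) →* Matrix (Fin dC) (Fin dC) ℤ) (ε : ℤ)
    (hSC : ∀ g, (SC g).trace = ε * chi (join e' (delta n₀) (delta n₁)) g)
    [Fintype (Perm (Fin (ka + kb)) ⧸ (youngHom ka kb).range)]
    [DecidableEq (Perm (Fin (ka + kb)) ⧸ (youngHom ka kb).range)] (c : C) :
    (quotientRep C hC SA SB SC c).trace =
      ε * ∑ fl ∈ fixedCol N (pairInv e),
        if fl ∘ ((c : Perm (Fin n))) = fl then eps (join e' A B) (cnt fl) else 0 := by
  have hk : ∑ i, (A i - delta n₀ i) + ∑ j, (B j - delta n₁ j) = ((ka + kb : ℕ) : ℤ) := by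
    rw [sum_sub_distrib, sum_sub_distrib, hA.total, hB.total]
    push_cast
    ring
  rw [sum_fixed_eq _ C hC, sum_pair_eq e' A B hk]
  show (induced _ (youngRep SA SB) _ ⊗ₖ SC _).trace = _
  rw [Matrix.trace_kronecker, trace_induced_young (hA.total.trans (add_comm _ _)) SA hSA SB hSB, hSC]
  ring

end Lattice

end Vale.Agent.P197.Littlewood
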