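import Vale.Agent.P197.Extreme.Dominance
import Vale.Agent.P197.Extreme.Constituent

/-!
# Every `ν` is comparable with the staircase or has a constituent in range

`K = (m - d + 1) / 4` is the number of gadgets of the layout, `k` the `2`-weight.
-/

open Finset Equiv

namespace Vale.Agent.P197.Extreme

open SymChar Littlewood

/-- The shape `c` is inside the range of the covering. -/
def InRange (K k r₀ l₀ : ℕ) : Prop :=
  r₀ + K ≤ k ∧ l₀ + K ≤ k

/-- A constituent of the possibly twisted quotient inside the range. -/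
def HasConstituent {n₀ n₁ : ℕ} (K ka kb : ℕ) (A : Fin n₀ → ℤ) (B : Fin n₁ → ℤ) : Prop :=
  ∃ (a : ka.Partition) (b : kb.Partition) (c : (ka + kb).Partition),
    ((∀ g : Perm (Fin ka), chi (beta a) g = chi A g) ∨
      ∀ g : Perm (Fin ka), chi (beta a) g = (Perm.sign g : ℤ) * chi A g) ∧
    ((∀ g : Perm (Fin kb), chi (beta b) g = chi B g) ∨
      ∀ g : Perm (Fin kb), chi (beta b) g = (Perm.sign g : ℤ) * chi B g) ∧
    ∑ σ : Perm (Fin (ka + kb)), chi (beta c) σ * splitSum (beta a) (beta b) σ ≠ 0 ∧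
    InRange K (ka + kb) (row c 0) (colLen c 0)

section Comparable

variable {n m d k K n₀ n₁ ka kb : ℕ} {e : Fin n₀ ⊕ Fin n₁ ≃ Fin n} {A : Fin n₀ → ℤ}
  {B : Fin n₁ → ℤ} {r v : n.Partition} {w : Perm (Fin n)}

lemma beta_inl (hjoin : join e A B = beta v) (i : Fin n₀) :
    beta v (e (.inl i)) = join e (delta n₀) (delta n₁) (e (.inl i)) + 2 * (A i - delta n₀ i) := by
  rw [← hjoin]
  simp [join]
  ring

lemma beta_inr (hjoin : join e A B = beta v) (i : Fin n₁) :
    beta v (e (.inr i)) = join e (delta n₀) (delta n₁) (e (.inr i)) + 2 * (B i - delta n₁ i) := by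
  rw [← hjoin]
  simp [join]
  ring

lemma core_le_beta (hjoin : join e A B = beta v) (hA : IsBeta ka A) (hB : IsBeta kb B)
    (x : Fin n) : join e (delta n₀) (delta n₁) x ≤ beta v x := by
  obtain ⟨y, rfl⟩ := e.surjective x
  rcases y with i | i
  · have := hA.delta_le' i
    rw [beta_inl hjoin]; omega
  · have := hB.delta_le' i
    rw [beta_inr hjoin]; omega

/-- The largest core bead of each parity is at least `n - d - 2`. -/
lemma top_bead (hw : join e (delta n₀) (delta n₁) = stairBeta n d ∘ w) (hdn : d + 2 ≤ n) :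
    (∀ h : 0 < n₀, (n : ℤ) ≤ join e (delta n₀) (delta n₁) (e (.inl ⟨0, h⟩)) + d + 2) ∧
    ∀ h : 0 < n₁, (n : ℤ) ≤ join e (delta n₀) (delta n₁) (e (.inr ⟨0, h⟩)) + d + 2 := by
  obtain ⟨y, hy⟩ := e.surjective (w.symm ⟨d, by omega⟩)
  obtain ⟨z, hz⟩ := e.surjective (w.symm ⟨d + 1, by omega⟩)
  have h1 := congrFun hw (e y)
  have h2 := congrFun hw (e z)
  simp only [Function.comp_apply, hy, hz, Equiv.apply_symm_apply, stairBeta, delta] at h1 h2
  rw [← hy] at h1
  rw [← hz] at h2
  constructor <;> intro h <;> rcases y with i | i <;> rcases z with l | l <;>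
    simp [join, delta] at h1 h2 ⊢ <;> omega

lemma colLen_shape_eq (hA : IsBeta ka A) :
    #((univ : Finset (Fin n₀)).filter fun i => A i ≠ delta n₀ i) = colLen (shape hA) 0 := by
  have h : ∀ i : Fin n₀, A i ≠ delta n₀ i ↔ (i : ℕ) < colLen (shape hA) 0 := fun i => by
    rw [lt_colLen_iff, row_shape]
    have := cast_rowsOf hA i
    have := hA.delta_le' i
    omega
  have hle : colLen (shape hA) 0 ≤ n₀ := by
    by_contra hh
    have := (lt_colLen_iff (shape hA) n₀ 0).mp (not_le.mp hh)
    rw [row_shape, rowsOf_of_le le_rfl] at this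
    omega
  rw [filter_congr fun i _ => h i]
  have : (univ.filter fun i : Fin n₀ => (i : ℕ) < colLen (shape hA) 0) =
      univ.map (Fin.castLEEmb hle) := by
    ext x
    simp only [mem_filter, mem_univ, true_and, mem_map, Fin.castLEEmb_apply]
    exact ⟨fun hx => ⟨⟨x, hx⟩, Fin.ext rfl⟩, fun ⟨y, hy⟩ => by rw [← hy]; exact y.isLt⟩
  rw [this, card_map]
  simp

/-- A bound for the excess on any set of beads. -/
lemma excess_le (hjoin : join e A B = beta v) (hA : IsBeta ka A) (hB : IsBeta kb B)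
    (S : Finset (Fin n)) :
    ∑ x ∈ S, (beta v x - join e (delta n₀) (delta n₁) x) ≤
      2 * #S + 2 * ((ka - colLen (shape hA) 0 + kb : ℕ) : ℤ) ∧
    ∑ x ∈ S, (beta v x - join e (delta n₀) (delta n₁) x) ≤
      2 * #S + 2 * ((kb - colLen (shape hB) 0 + ka : ℕ) : ℤ) := by
  classical
  have hS : ∀ f : Fin n → ℤ, ∑ x ∈ S, f x = ∑ i : Fin n₀, (if e (.inl i) ∈ S then f (e (.inl i))
      else 0) + ∑ i : Fin n₁, if e (.inr i) ∈ S then f (e (.inr i)) else 0 := fun f => by
    have := Equiv.sum_comp e fun x => if x ∈ S then f x else 0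
    rw [Fintype.sum_sum_type] at this
    rw [this, sum_ite_mem, univ_inter]
  have hcard : (#S : ℤ) = ∑ i : Fin n₀, (if e (.inl i) ∈ S then (1 : ℤ) else 0)
      + ∑ i : Fin n₁, if e (.inr i) ∈ S then (1 : ℤ) else 0 := by
    rw [← hS fun _ => 1]; simp
  have key : ∀ {N q : ℕ} {X : Fin N → ℤ} (hX : IsBeta q X) (P : Fin N → Prop) [DecidablePred P],
      ∑ i, (if P i then X i - delta N i else 0) ≤ (q : ℤ) ∧
      ∑ i, (if P i then X i - delta N i else 0) ≤
        ∑ i, (if P i then (1 : ℤ) else 0) + ((q - colLen (shape hX) 0 : ℕ) : ℤ) := by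
    intro N q X hX P _
    have htot : ∑ i, (X i - delta N i) = q := by rw [sum_sub_distrib, hX.total]; ring
    refine ⟨le_trans (sum_le_sum fun i _ => ?_) (le_of_eq htot), ?_⟩
    · have := hX.delta_le' i
      split_ifs <;> omega
    · have hcl : colLen (shape hX) 0 ≤ q := (zero_lt_iff_pos (shape hX)).2.2
      have hpos : ((colLen (shape hX) 0 : ℕ) : ℤ) =
          ∑ i, if X i ≠ delta N i then (1 : ℤ) else 0 := by
        rw [← colLen_shape_eq hX, Finset.sum_boole]
      have h1 : ∑ i, (if P i then X i - delta N i else 0) +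
          ∑ i, (if X i ≠ delta N i then (1 : ℤ) else 0) ≤
          ∑ i, (if P i then (1 : ℤ) else 0) + ∑ i, (X i - delta N i) := by
        rw [← sum_add_distrib, ← sum_add_distrib]
        refine sum_le_sum fun i _ => ?_
        have := hX.delta_le' i
        split_ifs <;> omega
      rw [htot, ← hpos] at h1
      omega
  have e0 := hS fun x => beta v x - join e (delta n₀) (delta n₁) x
  simp only [beta_inl hjoin, beta_inr hjoin, add_sub_cancel_left] at e0
  obtain ⟨a1, a2⟩ := key hA fun i => e (.inl i) ∈ S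
  obtain ⟨b1, b2⟩ := key hB fun i => e (.inr i) ∈ S
  have h2 : ∀ {N : ℕ} (P : Fin N → Prop) [DecidablePred P] (f : Fin N → ℤ),
      ∑ i, (if P i then 2 * f i else 0) = 2 * ∑ i, if P i then f i else 0 := by
    intro N P _ f
    rw [mul_sum]
    exact sum_congr rfl fun i _ => by split_ifs <;> simp
  rw [h2, h2] at e0
  have n1 : 0 ≤ ∑ i : Fin n₀, (if e (.inl i) ∈ S then (1 : ℤ) else 0) :=
    sum_nonneg fun i _ => by split_ifs <;> norm_num
  have n2 : 0 ≤ ∑ i : Fin n₁, (if e (.inr i) ∈ S then (1 : ℤ) else 0) :=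
    sum_nonneg fun i _ => by split_ifs <;> norm_num
  constructor <;> omega

/-- Nearly all weight in one row or column of one runner makes `ν` comparable. -/
theorem comparable_of_small (hr : ∀ i, row r i = m - i) (hS : Setup n m d (ka + kb) K)
    (hjoin : join e A B = beta v) (hA : IsBeta ka A) (hB : IsBeta kb B)
    (hw : join e (delta n₀) (delta n₁) = stairBeta n d ∘ w)
    (h : ka + kb + 1 ≤ row (shape hA) 0 + K ∨ ka + kb + 1 ≤ row (shape hB) 0 + K ∨
      ka + kb + 1 ≤ colLen (shape hA) 0 + K ∨ ka + kb + 1 ≤ colLen (shape hB) 0 + K) :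
    Dominates v r ∨ Dominates r v := by
  obtain ⟨l, hl, hlK, hl3, h4k, hdn⟩ := hS.arith
  have hkK : 2 * K ≤ ka + kb := by
    have := hS.hK
    nlinarith
  have htop := top_bead hw hdn
  have hge := core_le_beta hjoin hA hB
  rcases h with h | h | h | h
  · left
    have hn0 : 0 < n₀ := by
      by_contra h0
      rw [row_shape, rowsOf_of_le (not_lt.mp h0)] at h
      omega
    refine dominates_of_long_row hr hS hw hge (x := e (.inl ⟨0, hn0⟩)) (e := row (shape hA) 0)
      ?_ (htop.1 hn0) h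
    have := cast_rowsOf hA ⟨0, hn0⟩
    simp only at this
    rw [row_shape, beta_inl hjoin, this]
  · left
    have hn1 : 0 < n₁ := by
      by_contra h0
      rw [row_shape, rowsOf_of_le (not_lt.mp h0)] at h
      omega
    refine dominates_of_long_row hr hS hw hge (x := e (.inr ⟨0, hn1⟩)) (e := row (shape hB) 0)
      ?_ (htop.2 hn1) h
    have := cast_rowsOf hB ⟨0, hn1⟩
    simp only at this
    rw [row_shape, beta_inr hjoin, this]
  · exact Or.inr (dominated_of_long_col hr hS hw (fun S => (excess_le hjoin hA hB S).1)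
      (by have := (zero_lt_iff_pos (shape hA)).2.2; omega))
  · exact Or.inr (dominated_of_long_col hr hS hw (fun S => (excess_le hjoin hA hB S).2)
      (by have := (zero_lt_iff_pos (shape hB)).2.2; omega))

end Comparable

/-- The numerical content of the case split. -/
lemma cases_num {K k x1 x2 y1 y2 : ℕ} (hK : 0 < K) (hk : 4 * (K * K) ≤ k + K)
    (hsum : x1 + x2 + y1 + y2 ≤ k + 2)
    (c1 : k + 1 ≤ x1 + y1 + K) (c2 : k + 1 ≤ x2 + y2 + K) : False := by
  rcases eq_or_ne K 1 with rfl | h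
  · omega
  · have : 2 * K ≤ K * K := Nat.mul_le_mul_right K (by omega)
    omega

/-- **The case split.** -/
theorem constituent_or_comparable {n m d n₀ n₁ ka kb : ℕ} {r v : n.Partition}
    (hr : ∀ i, row r i = m - i) (hn : n = tri m) (hk : n = 2 * (ka + kb) + tri d)
    {e : Fin n₀ ⊕ Fin n₁ ≃ Fin n} {A : Fin n₀ → ℤ} {B : Fin n₁ → ℤ}
    (hjoin : join e A B = beta v) (hA : IsBeta ka A) (hB : IsBeta kb B) {w : Perm (Fin n)}
    (hw : join e (delta n₀) (delta n₁) = stairBeta n d ∘ w) :
    (Dominates v r ∨ Dominates r v) ∨ HasConstituent ((m - d + 1) / 4) ka kb A B := by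
  obtain ⟨K, hKdef⟩ : ∃ K, K = (m - d + 1) / 4 := ⟨_, rfl⟩
  rw [← hKdef]
  set a := shape hA with ha
  set b := shape hB with hb
  have cA : ∀ g : Perm (Fin ka), chi (beta a) g = chi A g := fun g => chi_shape hA g
  have cB : ∀ g : Perm (Fin kb), chi (beta b) g = chi B g := fun g => chi_shape hB g
  have g1 : InRange K (ka + kb) (row a 0 + row b 0) (max (colLen a 0) (colLen b 0)) →
      HasConstituent K ka kb A B := fun h =>
    ⟨a, b, addP a b, Or.inl cA, Or.inl cB, sum_ne_zero_of_pairing a b (pairing_addP_pos a b),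
      by rwa [row_addP, colLen_addP]⟩
  have g2 : InRange K (ka + kb) (max (row a 0) (row b 0)) (colLen a 0 + colLen b 0) →
      HasConstituent K ka kb A B := fun h =>
    ⟨a, b, unionP a b, Or.inl cA, Or.inl cB, sum_ne_zero_of_pairing a b (pairing_unionP_pos a b),
      by rwa [row_unionP, colLen_unionP]⟩
  obtain ⟨pA0, pA1, pA2⟩ := zero_lt_iff_pos a
  obtain ⟨pB0, pB1, pB2⟩ := zero_lt_iff_pos b
  have hkA := hook_bound a
  have hkB := hook_bound b
  have hdm : d ≤ m := by
    by_contra hh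
    have h1 := two_mul_tri m
    have h2 := two_mul_tri d
    nlinarith
  obtain ⟨l, hl⟩ : ∃ l, m = d + l := ⟨m - d, by omega⟩
  have h4k : 4 * (ka + kb) = 2 * d * l + l * (l + 1) := by
    have h1 := two_mul_tri m
    have h2 := two_mul_tri d
    subst hl
    nlinarith
  have hmod : l % 4 ≠ 2 := fun h => by
    obtain ⟨q, rfl⟩ : ∃ q, l = 4 * q + 2 := ⟨l / 4, by omega⟩
    ring_nf at h4k
    omega
  rcases Nat.eq_zero_or_pos K with hK | hK
  · exact Or.inr (g1 ⟨by omega, by omega⟩)
  have hS : Setup n m d (ka + kb) K := ⟨hn, hk, hdm, hK, by omega, by omega⟩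
  have hk3 : 4 * (K * K) ≤ ka + kb + K := by
    have : 4 * K * (4 * K) ≤ (l + 1) * (4 * K) := Nat.mul_le_mul_right _ (by omega)
    have : (4 * K - 1) * (4 * K) ≤ l * (l + 1) := Nat.mul_le_mul (by omega) (by omega)
    obtain ⟨q, hq⟩ : ∃ q, K = q + 1 := ⟨K - 1, by omega⟩
    subst hq
    rw [show 4 * (q + 1) - 1 = 4 * q + 3 by omega] at this
    nlinarith
  by_cases hsmall : ka + kb + 1 ≤ row a 0 + K ∨ ka + kb + 1 ≤ row b 0 + K ∨
      ka + kb + 1 ≤ colLen a 0 + K ∨ ka + kb + 1 ≤ colLen b 0 + K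
  · exact Or.inl (comparable_of_small hr hS hjoin hA hB hw hsmall)
  by_cases c1 : InRange K (ka + kb) (row a 0 + row b 0) (max (colLen a 0) (colLen b 0))
  · exact Or.inr (g1 c1)
  by_cases c2 : InRange K (ka + kb) (max (row a 0) (row b 0)) (colLen a 0 + colLen b 0)
  · exact Or.inr (g2 c2)
  unfold InRange at c1 c2
  exact (cases_num hK hk3 (x1 := row a 0) (x2 := colLen a 0) (y1 := row b 0) (y2 := colLen b 0)
    (by omega) (by omega) (by omega)).elim

end Vale.Agent.P197.Extreme
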