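import Vale.Agent.P197.Comparable
import Vale.Agent.P197.Colour.Assemble
import Vale.Agent.P197.Colour.TopList
import Vale.Agent.P197.Exceptional.Witness
import Vale.Agent.P197.Extreme

/-!
# The case assembly

A partition is comparable with the staircase, or has a constituent of its 2-quotient in the range
of the covering of the layout.  Such a constituent carries a good vector modulo 2: from the
covering, or from the special witness for the two hook shapes of `14`.
-/

open Finset Equiv Matrix

namespace Vale.Agent.P197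

open SymChar Littlewood Criterion Covering Colour Extreme

/-- An integral form of `c`, or of its sign twist, has a good vector modulo 2. -/
def HasVec (ps : List Piece) (c : (total ps).Partition) : Prop :=
  ∃ (d : ℕ) (S : Perm (Fin (total ps)) →* Matrix (Fin d) (Fin d) ℤ),
    ((∀ g, (S g).trace = chi (beta c) g) ∨
      ∀ g, (S g).trace = (Perm.sign g : ℤ) * chi (beta c) g) ∧
    ∃ w : Fin d → ZMod 2, w ≠ 0 ∧
      (∀ y : Perm (Fin (total ps)), layCls ps ∘ y = layCls ps → red S y *ᵥ w = w) ∧
      ∀ g ∈ layGs ps, w + red S g *ᵥ w + red S (g * g) *ᵥ w = 0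

lemma hasVec_of_good {ps : List Piece} {c : (total ps).Partition} (h : Good ps c) :
    HasVec ps c := by
  obtain ⟨d, S, hS⟩ := exists_intForm c
  exact ⟨d, S, Or.inl hS, exists_mod_two_vec h S hS⟩

/-- Positivity from layout data whose pieces cover every shape in range. -/
theorem kronecker_pos_of_layouts {n m : ℕ} {r : n.Partition} (hr : ∀ i, row r i = m - i)
    (hn : n = tri m)
    (hlay : ∀ d, d ≤ m → Even (tri m - tri d) → ∃ ps : List Piece,
      Nonempty (LayoutData (tableau r) d ps) ∧ 2 * total ps + tri d = n ∧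
      ∀ c : (total ps).Partition,
        InRange ((m - d + 1) / 4) (total ps) (row c 0) (colLen c 0) → HasVec ps c)
    (v : n.Partition) : 0 < kronecker r r v := by
  have hm : m ≤ n := hn ▸ le_tri m
  obtain ⟨d, k, ⟨n₀, n₁, ka, kb, e, A, B, hjoin, hA, hB, hk, -, w, hdn, hw⟩, hnk⟩ :=
    exists_hasCore v
  subst hk
  rcases constituent_or_comparable hr hn hnk hjoin hA hB hw with h | h
  · exact kronecker_pos_of_comparable hr h
  · obtain ⟨a, b, c, ha, hb, hc, hrange⟩ := h
    have hdm : d ≤ m := by
      by_contra hh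
      have h1 := two_mul_tri m
      have h2 := two_mul_tri d
      nlinarith
    have hpar : Even (tri m - tri d) := ⟨ka + kb, by omega⟩
    obtain ⟨ps, ⟨L⟩, htot, hgood⟩ := hlay d hdm hpar
    have cast : ∀ {k : ℕ}, ka + kb = k → ∃ c : k.Partition,
        (∑ σ : Perm (Fin k), chi (beta c) σ * splitSum (beta a) (beta b) σ ≠ 0) ∧
          InRange ((m - d + 1) / 4) k (row c 0) (colLen c 0) := by
      rintro k rfl
      exact ⟨c, hc, hrange⟩
    obtain ⟨c', hc', hrange'⟩ := cast (k := total ps) (by omega)
    obtain ⟨dc, Sc, hSc, u, hu0, huy, hug⟩ := hgood c' hrange'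
    exact kronecker_pos_of_vec hr hm L e hjoin hA hB (by omega) hdn w hw (isBeta_beta a) ha hb c'
      hc' Sc hSc u hu0 huy hug

/-- Every shape in range has a good vector for the standard layouts, given the two covering
theorems. -/
theorem hasVec_of_cover {n m d : ℕ} (hd : d ≤ m) (hn : n = tri m)
    (hpar : Even (tri m - tri d)) (htot : 2 * total (pieces (topList m d) (layK m d)) + tri d = n)
    (hcover : ∀ (top : List ℕ) (K : ℕ), 1 ≤ K →
      (∀ q ∈ top, 2 * K ≤ q + 1 ∧ q ≤ 2 * K + 1) → (∀ hne : top ≠ [], top.getLast hne ≤ 2 * K) →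
      ∀ c : (total (pieces top K)).Partition, row c 0 + K ≤ total (pieces top K) →
        colLen c 0 + K ≤ total (pieces top K) →
        ¬ (top = [] ∧ K = 2 ∧ row c 1 ≤ 1 ∧ (row c 0 = 8 ∨ row c 0 = 7)) →
        Good (pieces top K) c)
    (hcover₀ : ∀ (top : List ℕ), (∀ q ∈ top, q ≤ 1) →
      ∀ c : (total (pieces top 0)).Partition, Good (pieces top 0) c)
    (c : (total (pieces (topList m d) (layK m d))).Partition)
    (h : InRange ((m - d + 1) / 4) (total (pieces (topList m d) (layK m d))) (row c 0)
      (colLen c 0)) :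
    HasVec (pieces (topList m d) (layK m d)) c := by
  rcases Nat.eq_zero_or_pos (layK m d) with hK | hK
  · have h0 := topList_le_one hd hpar hK
    revert c
    rw [hK]
    exact fun c _ => hasVec_of_good (hcover₀ _ h0 c)
  by_cases hex : topList m d = [] ∧ layK m d = 2 ∧ row c 1 ≤ 1 ∧ (row c 0 = 8 ∨ row c 0 = 7)
  · obtain ⟨htop, hK2, h1, h0⟩ := hex
    revert c
    rw [htop, hK2]
    exact fun c _ h1 h0 => Exceptional.exists_exceptional_vec c h1 h0
  · exact hasVec_of_good (hcover _ _ hK (topList_bounds hd hpar hK) (topList_last hd hpar hK) c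
      h.1 h.2 hex)

end Vale.Agent.P197
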