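import Vale.Agent.P197.SymChar.Conjugate
import Vale.Agent.P197.SymChar.KostkaPos
import Vale.Agent.P197.Criterion.Colouring

/-!
# Partitions comparable with the staircase

`kronecker r r v > 0` for a staircase `r` and every `v` comparable with it in dominance.
-/

open Finset Equiv Representation

namespace Vale.Agent.P197

open SymChar

namespace Comparable

variable {n m : ℕ} {r : n.Partition} {T : Fin n → Fin n}

lemma cell_lt (hr : ∀ i, row r i = m - i) (hT : IsTableau r T) (x : Fin n) :
    (T x : ℕ) + colOf T x < m := by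
  have := (exists_cell hT (T x) (colOf T x)).mp ⟨x, rfl, rfl⟩
  rw [hr] at this
  omega

/-- A colouring bounded and injective along rows and along columns is the antidiagonal one. -/
lemma antidiagonal_forced (hr : ∀ i, row r i = m - i) (hT : IsTableau r T) (h : Fin n → Fin n)
    (hcnt : cnt h = cnt T)
    (hcolB : ∀ x, (h x : ℕ) + colOf T x < m) (hrowB : ∀ x, (h x : ℕ) + (T x : ℕ) < m)
    (hcolI : ∀ x y, colOf T x = colOf T y → h x = h y → x = y)
    (hrowI : ∀ x y, T x = T y → h x = h y → x = y) (x : Fin n) :
    (h x : ℕ) + (T x : ℕ) + colOf T x + 1 = m := by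
  suffices key : ∀ v : ℕ, ∀ y, (h y : ℕ) = v ↔ v + (T y : ℕ) + colOf T y + 1 = m from
    (key _ x).mp rfl
  intro v
  induction v using Nat.strong_induction_on with
  | _ v ih =>
    intro y
    rcases lt_or_ge v m with hv | hv
    swap
    · have h1 := hcolB y
      constructor <;> intro h2 <;> omega
    have hle : ∀ z, (h z : ℕ) = v → v + (T z : ℕ) + colOf T z + 1 ≤ m := by
      intro z hz
      by_contra hc
      have h1 := cell_lt hr hT z
      have := (ih (m - 1 - (T z : ℕ) - colOf T z) (by omega) z).mpr (by omega)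
      omega
    set S : Finset (Fin n) := univ.filter fun z => (h z : ℕ) = v
    set A : Finset (Fin n) := univ.filter fun z => v + (T z : ℕ) + colOf T z + 1 = m
    have hvn : v < n ∨ S = ∅ := by
      rcases eq_empty_or_nonempty S with hS | ⟨z, hz⟩
      · exact Or.inr hS
      · exact Or.inl ((mem_filter.mp hz).2 ▸ (h z).isLt)
    have hcardA : #A = m - v := by
      rw [← card_range (m - v)]
      refine card_bij (fun z _ => (T z : ℕ)) ?_ ?_ ?_
      · intro z hz
        simp only [A, mem_filter, mem_univ, true_and] at hz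
        rw [mem_range]; omega
      · intro z hz z' hz' he
        simp only [A, mem_filter, mem_univ, true_and] at hz hz'
        exact row_col_injective T (Fin.ext he) (by omega)
      · intro i hi
        rw [mem_range] at hi
        have hin : i < n := by
          by_contra hh
          have := row_eq_zero_of_le r (not_lt.mp hh)
          rw [hr] at this
          omega
        obtain ⟨z, hz, hc⟩ := (exists_cell hT ⟨i, hin⟩ (m - 1 - v - i)).mpr (by rw [hr]; simp; omega)
        refine ⟨z, ?_, by rw [hz]⟩
        simp only [A, mem_filter, mem_univ, true_and, hz, hc]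
        omega
    have hcardS : #S = m - v := by
      rcases hvn with hn' | hS
      · have : #S = cnt h ⟨v, hn'⟩ := by simp [S, cnt, Fin.ext_iff]
        rw [this, hcnt, hT, hr]
      · exfalso
        have h0 : n ≤ v := by
          by_contra hn'
          have hpos : 0 < cnt h ⟨v, not_le.mp hn'⟩ := by rw [hcnt, hT, hr]; simp only; omega
          obtain ⟨z, hz⟩ := card_pos.mp hpos
          have : z ∈ S := by simpa [S, Fin.ext_iff] using hz
          rw [hS] at this
          exact notMem_empty _ this
        have := row_eq_zero_of_le r h0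
        rw [hr] at this
        omega
    have hT' : S.image (fun z => (T z : ℕ)) = range (m - v) := by
      refine eq_of_subset_of_card_le (fun i hi => ?_) ?_
      · obtain ⟨z, hz, rfl⟩ := mem_image.mp hi
        simp only [S, mem_filter, mem_univ, true_and] at hz
        have := hrowB z
        rw [mem_range]; omega
      · rw [card_image_of_injOn, card_range, hcardS]
        intro z hz z' hz' he
        simp only [S, coe_filter, mem_univ, true_and, Set.mem_ofPred_eq] at hz hz'
        exact hrowI z z' (Fin.ext he) (Fin.ext (hz.trans hz'.symm))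
    have hC' : S.image (colOf T) = range (m - v) := by
      refine eq_of_subset_of_card_le (fun i hi => ?_) ?_
      · obtain ⟨z, hz, rfl⟩ := mem_image.mp hi
        simp only [S, mem_filter, mem_univ, true_and] at hz
        have := hcolB z
        rw [mem_range]; omega
      · rw [card_image_of_injOn, card_range, hcardS]
        intro z hz z' hz' he
        simp only [S, coe_filter, mem_univ, true_and, Set.mem_ofPred_eq] at hz hz'
        exact hcolI z z' he (Fin.ext (hz.trans hz'.symm))
    have hs1 : ∑ z ∈ S, (T z : ℕ) = ∑ i ∈ range (m - v), i := by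
      rw [← hT', sum_image]
      intro z hz z' hz' he
      simp only [S, coe_filter, mem_univ, true_and, Set.mem_ofPred_eq] at hz hz'
      exact hrowI z z' (Fin.ext he) (Fin.ext (hz.trans hz'.symm))
    have hs2 : ∑ z ∈ S, colOf T z = ∑ i ∈ range (m - v), i := by
      rw [← hC', sum_image]
      intro z hz z' hz' he
      simp only [S, coe_filter, mem_univ, true_and, Set.mem_ofPred_eq] at hz hz'
      exact hcolI z z' he (Fin.ext (hz.trans hz'.symm))
    have hsum : ∑ z ∈ S, (v + (T z : ℕ) + colOf T z + 1) = ∑ _z ∈ S, m := by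
      have hg := sum_range_id_mul_two (m - v)
      obtain ⟨q, hq⟩ : ∃ q, m = v + q + 1 := ⟨m - v - 1, by omega⟩
      have e1 : m - v = q + 1 := by omega
      rw [e1, show q + 1 - 1 = q by omega] at hg
      simp only [sum_add_distrib, sum_const, smul_eq_mul]
      rw [hs1, hs2, hcardS, e1]
      subst hq
      nlinarith [hg]
    have hsub : S ⊆ A := fun z hz =>
      mem_filter.mpr ⟨mem_univ _, (sum_eq_sum_iff_of_le fun z hz =>
        hle z (mem_filter.mp hz).2).mp hsum z hz⟩
    have heq : S = A := eq_of_subset_of_card_le hsub (by rw [hcardA, hcardS])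
    simpa [S, A] using Finset.ext_iff.mp heq y

lemma asAlgebraHom_comp {V : Type} [AddCommGroup V] [Module ℂ V]
    (ρ : Representation ℂ (Perm (Fin n)) V) (π : Perm (Fin n)) (y : GA n) (x : V) :
    asAlgebraHom ρ (MonoidAlgebra.single π 1 * y) x = ρ π (asAlgebraHom ρ y x) := by
  rw [map_mul, asAlgebraHom_single_one]
  rfl

/-- Evaluation of a left ideal of the group algebra at a vector. -/
lemma exists_eval {V : Type} [AddCommGroup V] [Module ℂ V]
    (ρ : Representation ℂ (Perm (Fin n)) V) (y : GA n) (z : V) :
    ∃ Φ : (spanRep y).toSubmodule →ₗ[ℂ] V,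
      (∀ π x, Φ ((spanRep y).toRepresentation π x) = ρ π (Φ x)) ∧
        ∃ x₀, Φ x₀ = asAlgebraHom ρ y z := by
  let ev : GA n →ₗ[ℂ] V := (LinearMap.applyₗ z).comp (asAlgebraHom ρ).toLinearMap
  refine ⟨ev.comp (Submodule.subtype _), fun π x => asAlgebraHom_comp ρ π x.1 z,
    ⟨y, Submodule.subset_span ⟨1, by simp [← MonoidAlgebra.one_def]⟩⟩, rfl⟩

/-- Two maps into the colourings multiply to a map out of the tensor square. -/
lemma exists_mulMap {c : Fin n → ℕ} {V : Type} [AddCommGroup V] [Module ℂ V]
    (Q : Representation ℂ (Perm (Fin n)) V)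
    (Φ : V →ₗ[ℂ] ({g : Fin n → Fin n // cnt g = c} → ℂ))
    (hΦ : ∀ π x, Φ (Q π x) = colouringRep (α := Fin n) c π (Φ x)) :
    ∃ L : IntertwiningMap (tprod Q Q) (colouringRep (α := Fin n) c),
      ∀ x y, L.toLinearMap (TensorProduct.tmul ℂ x y) = Φ x * Φ y := by
  let B : V →ₗ[ℂ] V →ₗ[ℂ] ({g : Fin n → Fin n // cnt g = c} → ℂ) :=
    (LinearMap.mul ℂ _).compl₁₂ Φ Φ
  refine ⟨{ toLinearMap := TensorProduct.lift B
            isIntertwining' := fun π => TensorProduct.ext' fun x y => ?_ }, fun x y => rfl⟩
  show Φ (Q π x) * Φ (Q π y) = colouringRep (α := Fin n) c π (Φ x * Φ y)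
  rw [hΦ, hΦ]
  rfl

/-- A surjection from the tensor square onto the colourings. -/
theorem exists_surjection (hr : ∀ i, row r i = m - i) :
    ∃ (V : Type) (_ : AddCommGroup V) (_ : Module ℂ V) (_ : FiniteDimensional ℂ V)
      (Q : Representation ℂ (Perm (Fin n)) V)
      (L : IntertwiningMap (tprod Q Q)
        (colouringRep (α := Fin n) fun i : Fin n => row r i)),
      Q.character = chiP r ∧ Function.Surjective L := by
  classical
  set T := tableau r with hTdef
  have hT : IsTableau r T := (exists_isTableau r).choose_spec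
  set c : Fin n → ℕ := fun i => row r i
  have hcT : cnt T = c := funext hT
  set a := rowSym T
  set b := colSym T
  set M := colouringRep (α := Fin n) c with hM
  let Q := (spanRep (b * a)).toRepresentation
  refine ⟨_, inferInstance, inferInstance, inferInstance, Q, ?_⟩
  let G := {g : Fin n → Fin n // cnt g = c}
  let T' : G := ⟨T, hcT⟩
  let δT : G → ℂ := Pi.single T' 1
  obtain ⟨Φ, hΦ, hx₀'⟩ := exists_eval M (b * a) δT
  obtain ⟨L, hLmul⟩ := exists_mulMap Q Φ hΦ
  refine ⟨L, coYoung_character r, ?_⟩
  -- the transpose and the antidiagonal colouring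
  have hcell : ∀ i j : ℕ, i + j < m → ∃ x, (T x : ℕ) = i ∧ colOf T x = j := by
    intro i j hij
    have hin : i < n := by
      by_contra hh
      have := row_eq_zero_of_le r (not_lt.mp hh)
      rw [hr] at this
      omega
    obtain ⟨x, hx, hc⟩ := (exists_cell hT ⟨i, hin⟩ j).mpr (by rw [hr]; simp; omega)
    exact ⟨x, by rw [hx], hc⟩
  have hsw : ∀ x, ∃ y, (T y : ℕ) = colOf T x ∧ colOf T y = (T x : ℕ) := fun x =>
    hcell _ _ (by have := cell_lt hr hT x; omega)
  choose sw hsw1 hsw2 using hsw
  have hswinv : Function.Involutive sw := fun x =>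
    row_col_injective T (Fin.ext (by rw [hsw1, hsw2])) (by rw [hsw2, hsw1])
  let π₀ : Perm (Fin n) := hswinv.toPerm
  have hanti : ∀ x, ∃ y, (T y : ℕ) + (T x : ℕ) + colOf T x + 1 = m ∧ colOf T y = colOf T x := by
    intro x
    have := cell_lt hr hT x
    obtain ⟨y, hy1, hy2⟩ := hcell (m - 1 - (T x : ℕ) - colOf T x) (colOf T x) (by omega)
    exact ⟨y, by omega, hy2⟩
  choose an han1 han2 using hanti
  have hannv : Function.Involutive an := fun x => by
    refine row_col_injective T (Fin.ext ?_) (by rw [han2, han2])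
    have h1 := han1 (an x)
    have h2 := han1 x
    rw [han2] at h1
    omega
  let c₀ : Perm (Fin n) := hannv.toPerm
  let h₀ : G := ⟨T ∘ c₀, (cnt_comp_equiv T c₀).trans hcT⟩
  -- the image of the generator
  let u : G → ℂ := asAlgebraHom M b δT
  have hu : ∀ h : G, u h = ∑ π ∈ colStab T,
      ((Perm.sign π : ℤ) : ℂ) * if h.1 ∘ π = T then 1 else 0 := by
    intro h
    simp only [u, b, colSym, map_sum, asAlgebraHom_single, LinearMap.sum_apply, Finset.sum_apply,
      LinearMap.smul_apply, Pi.smul_apply, smul_eq_mul]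
    refine sum_congr rfl fun π _ => ?_
    congr 1
    show δT ⟨h.1 ∘ π, (cnt_comp_equiv h.1 π).trans h.2⟩ = _
    exact Pi.single_apply T' (1 : ℂ) _ |>.trans (if_congr Subtype.ext_iff rfl rfl)
  have huone : u h₀ ≠ 0 := by
    rw [hu, sum_eq_single c₀]
    · rw [if_pos]
      · simp
      · funext x
        show T (an (an x)) = T x
        rw [hannv]
    · intro π hπ hne
      rw [if_neg, mul_zero]
      intro he
      refine hne (Equiv.ext fun x => hannv.injective (row_col_injective T ?_ ?_))
      · show T (c₀ (π x)) = T (an (an x))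
        rw [hannv]
        exact congrFun he x
      · rw [han2, han2]
        exact (congrFun (mem_filter.mp hπ).2 x).trans (han2 x).symm
    · intro hne
      exact absurd (by simp [colStab, funext_iff, c₀, han2]) hne
  have hsupp : ∀ h : G, u h ≠ 0 →
      (∀ x, (h.1 x : ℕ) + colOf T x < m) ∧
      ∀ x y, colOf T x = colOf T y → h.1 x = h.1 y → x = y := by
    intro h hne
    rw [hu] at hne
    obtain ⟨π, hπ, hne'⟩ := exists_ne_zero_of_sum_ne_zero hne
    have he : h.1 ∘ π = T := by
      by_contra hh
      exact hne' (by rw [if_neg hh, mul_zero])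
    have hcol : ∀ z, colOf T (π z) = colOf T z := congrFun (mem_filter.mp hπ).2
    constructor
    · intro x
      obtain ⟨z, rfl⟩ := π.surjective x
      have h1 : h.1 (π z) = T z := congrFun he z
      rw [h1, hcol]
      exact cell_lt hr hT z
    · intro x y hxy hh
      obtain ⟨z, rfl⟩ := π.surjective x
      obtain ⟨z', rfl⟩ := π.surjective y
      have h1 : h.1 (π z) = T z := congrFun he z
      have h2 : h.1 (π z') = T z' := congrFun he z'
      rw [h1, h2] at hh
      rw [hcol, hcol] at hxy
      rw [row_col_injective T hh hxy]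
  let w : G → ℂ := M π₀ u
  have hw : ∀ h : G, w h = u ⟨h.1 ∘ π₀, (cnt_comp_equiv h.1 π₀).trans h.2⟩ := fun h => rfl
  have hkey : ∀ h : G, u h * w h ≠ 0 → h = h₀ := by
    intro h hne
    obtain ⟨hne1, hne2⟩ := mul_ne_zero_iff.mp hne
    obtain ⟨hcolB, hcolI⟩ := hsupp h hne1
    rw [hw] at hne2
    obtain ⟨hB, hI⟩ := hsupp _ hne2
    have hB' : ∀ x, (h.1 x : ℕ) + (T x : ℕ) < m := fun x => by
      have := hB (sw x)
      simp only [Function.comp_apply, π₀, Function.Involutive.coe_toPerm, hswinv x, hsw2] at this
      exact this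
    have hI' : ∀ x y, T x = T y → h.1 x = h.1 y → x = y := fun x y hxy hh => by
      refine hswinv.injective (hI (sw x) (sw y) (by rw [hsw2, hsw2, hxy]) ?_)
      simp only [Function.comp_apply, π₀, Function.Involutive.coe_toPerm, hswinv x, hswinv y, hh]
    refine Subtype.ext (funext fun x => Fin.ext ?_)
    have h1 := antidiagonal_forced hr hT h.1 (h.2.trans hcT.symm) hcolB hB' hcolI hI' x
    have h2 := han1 x
    show (h.1 x : ℕ) = (T (an x) : ℕ)
    omega
  have hw₀ : w h₀ = u h₀ := by
    rw [hw]
    congr 1
    refine Subtype.ext (funext fun x => Fin.ext ?_)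
    show (T (an (sw x)) : ℕ) = (T (an x) : ℕ)
    have h1 := han1 (sw x)
    have h2 := han1 x
    rw [hsw1, hsw2] at h1
    omega
  -- everything is in the range
  intro F
  have hgen : ∀ g : G, Pi.single g (1 : ℂ) ∈ LinearMap.range L.toLinearMap := by
    obtain ⟨x₀, hx₀'⟩ := hx₀'
    have hx₀ : Φ x₀ = (#(stab T) : ℂ) • u := by
      rw [hx₀', map_mul]
      show asAlgebraHom M b (asAlgebraHom M a δT) = _
      have ha : asAlgebraHom M a δT = (#(stab T) : ℂ) • δT := by
        simp only [a, rowSym, map_sum, LinearMap.sum_apply, asAlgebraHom_single_one]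
        rw [Nat.cast_smul_eq_nsmul, ← sum_const]
        refine sum_congr rfl fun π hπ => funext fun g => ?_
        show δT ⟨g.1 ∘ π, _⟩ = δT g
        have hπ' := mem_stab.mp hπ
        simp only [δT, Pi.single_apply]
        refine if_congr ⟨fun h => Subtype.ext ?_, fun h => Subtype.ext ?_⟩ rfl rfl
        swap
        · show g.1 ∘ π = T
          rw [h]; exact hπ'
        replace h : g.1 ∘ π = T := congrArg Subtype.val h
        show g.1 = T
        funext z
        obtain ⟨z', rfl⟩ := π.surjective z
        exact (congrFun h z').trans (congrFun hπ' z').symm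
      rw [ha, map_smul]
    have hs : (#(stab T) : ℂ) ≠ 0 := by
      rw [Nat.cast_ne_zero, ← Nat.pos_iff_ne_zero, card_pos]
      exact ⟨1, by simp⟩
    have h0 : Pi.single h₀ (1 : ℂ) ∈ LinearMap.range L.toLinearMap := by
      refine ⟨((#(stab T) : ℂ) * (#(stab T) : ℂ) * (u h₀ * u h₀))⁻¹ •
        TensorProduct.tmul ℂ x₀ (Q π₀ x₀), ?_⟩
      rw [map_smul]
      rw [hLmul, hΦ, hx₀, map_smul]
      funext h
      show _ * ((#(stab T) : ℂ) * u h * ((#(stab T) : ℂ) * w h)) = _
      by_cases hh : h = h₀
      · subst hh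
        rw [hw₀, Pi.single_eq_same]
        field_simp
      · have : u h * w h = 0 := by_contra fun hne => hh (hkey h hne)
        rw [Pi.single_eq_of_ne hh]
        linear_combination ((#(stab T) : ℂ) * (#(stab T) : ℂ) * (u h₀ * u h₀))⁻¹ *
          (#(stab T) : ℂ) * (#(stab T) : ℂ) * this
    intro g
    obtain ⟨σ, hσ⟩ := exists_perm_of_cnt_eq (g.2.trans h₀.2.symm)
    obtain ⟨y, hy⟩ := h0
    refine ⟨tprod Q Q σ y, ?_⟩
    have h1 : L.toLinearMap (tprod Q Q σ y) = M σ (L.toLinearMap y) :=
      LinearMap.congr_fun (L.isIntertwining' σ) y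
    rw [h1, hy]
    funext h
    show (Pi.single h₀ (1 : ℂ) : G → ℂ) ⟨h.1 ∘ σ, _⟩ = _
    simp only [Pi.single_apply]
    refine if_congr ⟨fun hh => Subtype.ext ?_, fun hh => Subtype.ext ?_⟩ rfl rfl
    swap
    · show h.1 ∘ σ = h₀.1
      rw [hh]; exact hσ
    replace hh : h.1 ∘ σ = h₀.1 := congrArg Subtype.val hh
    funext z
    obtain ⟨z', rfl⟩ := σ.surjective z
    exact (congrFun hh z').trans (congrFun hσ z').symm
  have hF : F ∈ LinearMap.range L.toLinearMap := by
    rw [pi_eq_sum_univ' F]
    exact Submodule.sum_mem _ fun g _ => Submodule.smul_mem _ _ (hgen g)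
  exact hF

/-- The tensor square of the staircase contains every more dominant partition. -/
theorem kronecker_pos_of_dominates {v : n.Partition} (hr : ∀ i, row r i = m - i)
    (h : Dominates v r) : 0 < kronecker r r v := by
  classical
  obtain ⟨V, _, _, _, Q, L, hQ, hL⟩ := exists_surjection hr
  let M := colouringRep (α := Fin n) fun i : Fin n => row r i
  have hne : (Nat.card (Perm (Fin n)) : ℂ) ≠ 0 := by simp [Nat.card_eq_fintype_card]
  have : Invertible (Nat.card (Perm (Fin n)) : ℂ) := invertibleOfNonzero hne
  have hfac : (n.factorial : ℂ) ≠ 0 := by exact_mod_cast Nat.factorial_ne_zero n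
  have hrankM : (Module.finrank ℂ (IntertwiningMap M (spechtRep v)) : ℂ) =
      kost n n (beta v) (fun i : Fin n => row r i) := by
    have h1 := card_inv_mul_sum_char_mul_char_eq_finrank M (spechtRep v)
    rw [spechtRep_character] at h1
    unfold chiP at h1
    rw [sum_chi_mul_colouring (beta v) _ (sum_row r), Nat.card_eq_fintype_card, Fintype.card_perm,
      Fintype.card_fin, ← mul_assoc, inv_mul_cancel₀ hfac, one_mul] at h1
    exact h1.symm
  have hpos : 0 < Module.finrank ℂ (IntertwiningMap M (spechtRep v)) := by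
    by_contra h0
    rw [Nat.eq_zero_of_not_pos h0, Nat.cast_zero] at hrankM
    have := kost_pos_of_dominates h
    have h2 : kost n n (beta v) (fun i : Fin n => row r i) = 0 := by exact_mod_cast hrankM.symm
    omega
  have : Nontrivial (IntertwiningMap M (spechtRep v)) :=
    Module.nontrivial_of_finrank_pos (R := ℂ) hpos
  obtain ⟨f, hf⟩ := exists_ne (0 : IntertwiningMap M (spechtRep v))
  have hg : f.comp L ≠ 0 := by
    intro h0
    refine hf (IntertwiningMap.ext (LinearMap.ext fun y => ?_))
    obtain ⟨z, rfl⟩ := hL y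
    have h1 : (f.comp L).toLinearMap z = 0 :=
      congrArg (fun F : IntertwiningMap (tprod Q Q) (spechtRep v) => F.toLinearMap z) h0
    simpa using h1
  have hkey : (Module.finrank ℂ (IntertwiningMap (tprod Q Q) (spechtRep v)) : ℂ) =
      (kronecker r r v : ℂ) := by
    rw [← card_inv_mul_sum_char_mul_char_eq_finrank (tprod Q Q) (spechtRep v)]
    refine (eq_inv_mul_iff_mul_eq₀ hne).mpr ?_ |>.symm
    rw [mul_comm, Nat.card_eq_fintype_card, Fintype.card_perm, Fintype.card_fin, kronecker_eq]
    refine sum_congr rfl fun π _ => ?_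
    rw [char_tensor, Pi.mul_apply, hQ, spechtRep_character]
    simp only [chiP, chiC, chi_inv]
    push_cast
    ring
  have hfin : 0 < Module.finrank ℂ (IntertwiningMap (tprod Q Q) (spechtRep v)) := by
    have : Nontrivial (IntertwiningMap (tprod Q Q) (spechtRep v)) := ⟨f.comp L, 0, hg⟩
    obtain ⟨z, hz⟩ : ∃ z, (f.comp L).toLinearMap z ≠ 0 := by
      by_contra hc
      push Not at hc
      exact hg (IntertwiningMap.ext (LinearMap.ext fun z => hc z))
    let s : ℂ →ₗ[ℂ] IntertwiningMap (tprod Q Q) (spechtRep v) :=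
      LinearMap.toSpanSingleton ℂ _ (f.comp L)
    have hs : Function.Injective s := by
      intro c d hcd
      have h1 : c • (f.comp L).toLinearMap z = d • (f.comp L).toLinearMap z :=
        congrArg (fun F : IntertwiningMap (tprod Q Q) (spechtRep v) => F.toLinearMap z) hcd
      exact smul_left_injective ℂ hz h1
    exact lt_of_lt_of_le (by simp) (LinearMap.finrank_le_finrank_of_injective hs)
  rw [Nat.cast_inj] at hkey
  omega

end Comparable

/-- **`g(ρ, ρ, ν) > 0` whenever `ν` is comparable with `ρ` in dominance.** -/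
theorem kronecker_pos_of_comparable {n m : ℕ} {r v : n.Partition} (hr : ∀ i, row r i = m - i)
    (h : Dominates v r ∨ Dominates r v) : 0 < kronecker r r v := by
  rcases h with h | h
  · exact Comparable.kronecker_pos_of_dominates hr h
  · have h' := dominates_conjP h
    rw [conjP_staircase hr] at h'
    have := Comparable.kronecker_pos_of_dominates hr h'
    have e := kronecker_conjP r r v
    rw [conjP_staircase hr] at e
    rwa [e] at this

end Vale.Agent.P197
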