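import Vale.Agent.P197.Covering.Gadget
import Vale.Agent.P197.Covering.SmallGadget
import Vale.Agent.P197.Covering.Mod2

/-!
# The covering theorem

Every shape within the margins has a good vector for the pieces `top ++ tail K`, and hence, in
every integral form, a nonzero vector modulo two fixed by the class permutations and killed by
`1 + g + g ^ 2` for the gadget permutations `g`.
-/

open Finset Equiv

namespace Vale.Agent.P197.Covering

open SymChar Criterion

lemma good_nil (c : (total []).Partition) : Good [] c :=
  goodC_oneRow c (fun i _ => row_eq_zero_of_le c (Nat.zero_le i)) _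

/-- The gadget of size three. -/
theorem cov_gadget_one : Cov [] 1 := by
  intro c
  change (3 * 1 + total []).Partition at c
  intro h0 hl _
  have h0' : row c 0 + 1 ≤ 3 := h0
  have hl' : colLen c 0 + 1 ≤ 3 := hl
  have hsum : ∑ i ∈ range 1, row c i + (colLen c 0 - 1) * row c 1 ≥ 3 := by
    have := size_le c (a := 1) (m := 1) le_rfl
    simpa [total] using this
  have hmul := size_le_row_mul c
  simp only [sum_range_one] at hsum
  have hc1 : 1 ≤ row c 1 := by
    by_contra hc
    rw [show row c 1 = 0 by omega, mul_zero] at hsum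
    omega
  have hc0 : 2 ≤ row c 0 := by
    by_contra hc
    have h5 := Nat.mul_le_mul (show row c 0 ≤ 1 by omega) (show colLen c 0 ≤ 2 by omega)
    have h6 : 3 ≤ row c 0 * colLen c 0 := hmul
    omega
  obtain ⟨lam, hgood, hlam⟩ := exists_threeRow (p := 1) (a := 2) (b := 1) (d := 0)
    (by omega) (by omega) le_rfl rfl
  refine Good.step (lam := lam) hgood (fun i => ?_) fun kap _ => good_nil kap
  refine (hlam i).trans_le ?_
  split_ifs with e0 e1
  · subst e0; exact hc0
  · subst e1; exact hc1
  · exact Nat.zero_le _
  · exact Nat.zero_le _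

lemma cov_of_base {K : ℕ} (hK : 1 ≤ K) (h : Cov [] K) :
    ∀ top, TopOK K top → Cov top K := by
  intro top
  induction top with
  | nil => exact fun _ => h
  | cons q r ih => exact fun hok => cov_single hK hok (ih hok.2.2.2)

/-- The covering for every number of gadgets. -/
theorem cov_all : ∀ K, 1 ≤ K → ∀ top, TopOK K top → Cov top K := by
  intro K
  induction K using Nat.strong_induction_on with
  | _ K ih =>
    intro hK
    refine cov_of_base hK ?_
    rcases K with _ | _ | _ | j
    · omega
    · exact cov_gadget_one
    · exact cov_gadget_two (ih 1 (by omega) le_rfl [2]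
        ⟨by omega, by omega, Or.inl (by omega), trivial⟩)
    · exact cov_gadget (ih (j + 2) (by omega) (by omega) [2 * j + 4]
        ⟨by omega, by omega, Or.inl (by omega), trivial⟩)

/-- The condition on the top pieces: entries in `[2 K - 1, 2 K + 1]`, the last at most `2 K`. -/
lemma topOK_iff {K : ℕ} {top : List ℕ} : TopOK K top ↔
    (∀ q ∈ top, 2 * K ≤ q + 1 ∧ q ≤ 2 * K + 1) ∧ ∀ q, top.getLast? = some q → q ≤ 2 * K := by
  induction top with
  | nil => simp [TopOK]
  | cons a r ih =>
    rcases r with _ | ⟨b, r⟩
    · simp [TopOK, and_assoc]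
    · rw [TopOK, ih]
      simp only [List.mem_cons, forall_eq_or_imp, ne_eq, reduceCtorEq, not_false_eq_true,
        or_true, true_and, List.getLast?_cons_cons]
      tauto

/-- A shape within the margins is good. -/
theorem cover (top : List ℕ) (K : ℕ) (hK : 1 ≤ K) (htop : TopOK K top)
    (c : (total (pieces top K)).Partition) (h1 : row c 0 + K ≤ total (pieces top K))
    (h2 : colLen c 0 + K ≤ total (pieces top K)) (hexc : ¬ Exc top K c) :
    Good (pieces top K) c :=
  cov_all K hK top htop c h1 h2 hexc

/-- `cover`, with the conditions on the top pieces spelt out. -/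
theorem cover_of_bounds {top : List ℕ} {K : ℕ} (hK : 1 ≤ K)
    (htop : ∀ q ∈ top, 2 * K ≤ q + 1 ∧ q ≤ 2 * K + 1)
    (hlast : ∀ h : top ≠ [], top.getLast h ≤ 2 * K)
    (c : (total (pieces top K)).Partition) (h1 : row c 0 + K ≤ total (pieces top K))
    (h2 : colLen c 0 + K ≤ total (pieces top K)) (hexc : ¬ Exc top K c) :
    Good (pieces top K) c := by
  refine cover top K hK (topOK_iff.mpr ⟨htop, fun q hq => ?_⟩) c h1 h2 hexc
  obtain ⟨hne, rfl⟩ : ∃ h : top ≠ [], top.getLast h = q := by
    rcases top with _ | ⟨a, r⟩
    · simp at hq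
    · exact ⟨List.cons_ne_nil a r, by simpa [List.getLast?_eq_some_getLast] using hq⟩
  exact hlast hne

lemma layCls_injective : ∀ top : List ℕ, (∀ q ∈ top, q ≤ 1) →
    Function.Injective (layCls (pieces top 0)) ∧ layGs (pieces top 0) = [] := by
  intro top
  induction top with
  | nil => exact fun _ => ⟨fun x => x.elim0, rfl⟩
  | cons q r ih =>
    intro h
    obtain ⟨h1, h2⟩ := ih fun x hx => h x (List.mem_cons_of_mem _ hx)
    refine ⟨fun x y hxy => ?_, ?_⟩
    · change Fin (q + total (pieces r 0)) at x y
      obtain ⟨x, rfl⟩ := (finSumFinEquiv (m := q) (n := total (pieces r 0))).surjective x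
      obtain ⟨y, rfl⟩ := (finSumFinEquiv (m := q) (n := total (pieces r 0))).surjective y
      have hq := h q List.mem_cons_self
      refine congrArg finSumFinEquiv ?_
      have key : Sum.elim (fun _ : Fin q => ((0, 0) : ℕ × ℕ))
          (fun j => ((layCls (pieces r 0) j).1 + 1, (layCls (pieces r 0) j).2)) x =
          Sum.elim (fun _ : Fin q => ((0, 0) : ℕ × ℕ))
          (fun j => ((layCls (pieces r 0) j).1 + 1, (layCls (pieces r 0) j).2)) y := by
        have e : ∀ z, layCls (pieces (q :: r) 0) (finSumFinEquiv z) =
            Sum.elim (fun _ : Fin q => ((0, 0) : ℕ × ℕ))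
            (fun j => ((layCls (pieces r 0) j).1 + 1, (layCls (pieces r 0) j).2)) z := by
          rintro (i | j)
          · exact layCls_cons_inl (Piece.single q) _ i
          · exact layCls_cons_inr (Piece.single q) _ j
        exact (e x).symm.trans (hxy.trans (e y))
      rcases x with x | x <;> rcases y with y | y <;> simp at key
      · exact congrArg Sum.inl (Fin.ext (by omega))
      · exact congrArg Sum.inr (h1 (Prod.ext key.1 key.2))
    · show (Piece.single q).perms.map _ ++ (layGs (pieces r 0)).map _ = []
      rw [h2]; rfl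

/-- Without gadgets and with classes of at most one point every shape is good. -/
theorem cover_zero (top : List ℕ) (htop : ∀ q ∈ top, q ≤ 1)
    (c : (total (pieces top 0)).Partition) : Good (pieces top 0) c := by
  obtain ⟨hinj, hgs⟩ := layCls_injective top htop
  obtain ⟨d, ρ, hirr, hρ⟩ := chiP_mem_irrSet c
  have : Nontrivial (Fin d → ℂ) := by
    rcases subsingleton_or_nontrivial (Fin d → ℂ) with h | h
    · exfalso
      obtain ⟨U, U', hne⟩ := exists_pair_ne (Subrepresentation ρ)
      exact hne (Subrepresentation.toSubmodule_injective (Subsingleton.elim _ _))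
    · exact h
  obtain ⟨v, hv⟩ := exists_ne (0 : Fin d → ℂ)
  refine ⟨d, ρ, hρ, v, hv, fun y hy => ?_, fun g hg => ?_⟩
  · left
    rw [show y = 1 from Equiv.ext fun x => hinj (congrFun hy x), map_one, Module.End.one_apply]
  · rw [hgs] at hg
    exact absurd hg List.not_mem_nil

/-- The covering, in integral forms modulo two. -/
theorem cover_mod_two (top : List ℕ) (K : ℕ) (hK : 1 ≤ K) (htop : TopOK K top)
    (c : (total (pieces top K)).Partition) (h1 : row c 0 + K ≤ total (pieces top K))
    (h2 : colLen c 0 + K ≤ total (pieces top K)) (hexc : ¬ Exc top K c) {d : ℕ}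
    (S : Perm (Fin (total (pieces top K))) →* Matrix (Fin d) (Fin d) ℤ)
    (hS : ∀ g, (S g).trace = chi (beta c) g) :
    ∃ w : Fin d → ZMod 2, w ≠ 0 ∧
      (∀ y : Perm (Fin (total (pieces top K))), layCls (pieces top K) ∘ y = layCls (pieces top K) →
        (red S y).mulVec w = w) ∧
      ∀ g ∈ layGs (pieces top K),
        w + (red S g).mulVec w + (red S (g * g)).mulVec w = 0 :=
  exists_mod_two_vec (cover top K hK htop c h1 h2 hexc) S hS

end Vale.Agent.P197.Covering
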