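import Vale.Agent.P197.Criterion.Setup

/-!
# A positivity criterion for Kronecker coefficients of staircase squares
-/

open Equiv Matrix

namespace Vale.Agent.P197.Criterion

open SymChar

variable {n : ℕ}

/-- Let `R`, `S` be integral forms of `S^ρ` (`ρ` a staircase) and `S^ν`, `τ` an involution with
centraliser `C`.  If a nonzero `C`-image `L` of `R` modulo `2` is a `C`-subquotient of
`ker (1 + S τ) / im (1 + S τ)` modulo `2`, then `g(ρ, ρ, ν) > 0`. -/
theorem kronecker_pos {m : ℕ} {r v : n.Partition} (hr : ∀ i, row r i = m - i) (hm : m ≤ n)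
    {d e : ℕ} (R : Perm (Fin n) →* Matrix (Fin d) (Fin d) ℤ)
    (hR : ∀ g, (R g).trace = chi (beta r) g)
    (S : Perm (Fin n) →* Matrix (Fin e) (Fin e) ℤ) (hS : ∀ g, (S g).trace = chi (beta v) g)
    {τ : Perm (Fin n)} (hτ : τ * τ = 1) (C : Subgroup (Perm (Fin n))) [DecidablePred (· ∈ C)]
    (hC : ∀ g, g ∈ C ↔ τ * g = g * τ)
    {L : Type*} [AddCommGroup L] [Module (ZMod 2) L] (σ : C →* Module.End (ZMod 2) L)
    (f : (Fin d → ZMod 2) →ₗ[ZMod 2] L) (hf : ∀ (c : C) x, f (red R c *ᵥ x) = σ c (f x))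
    (hf0 : f ≠ 0) (U : Submodule (ZMod 2) (Fin e → ZMod 2))
    (hfix : ∀ w ∈ U, red S τ *ᵥ w = w) (hU : ∀ (c : C), ∀ w ∈ U, red S c *ᵥ w ∈ U)
    (p : U →ₗ[ZMod 2] L) (hp : Function.Surjective p)
    (hp' : ∀ (c : C) (w : U), p ⟨red S c *ᵥ w, hU c w w.2⟩ = σ c (p w))
    (hker : ∀ w : U,
      (w : Fin e → ZMod 2) ∈ LinearMap.range (LinearMap.id + (red S τ).mulVecLin) → p w = 0) :
    0 < kronecker r r v := by
  refine Nat.pos_of_ne_zero fun h => ?_
  obtain ⟨θ, hθ⟩ := exists_trace_eq_one hr hm R hR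
  exact (annihilates_of_kronecker_eq_zero h R hR S hS).not_subquotient hθ hτ C hC σ f hf hf0 U
    hfix hU p hp hp' hker

end Vale.Agent.P197.Criterion
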