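import Vale.Agent.P197.Assembly
import Vale.Agent.P197.Covering

/-!
# Every Kronecker coefficient `g(ρ, ρ, ν)` of a staircase `ρ` is positive

Stated relative to layout data for the standard layouts.
-/

open Finset Equiv

namespace Vale.Agent.P197

open SymChar Covering Colour

/-- Positivity for the staircase of side `m`, from layout data for every admissible core. -/
theorem kronecker_pos_of_layoutData {n m : ℕ} {r : n.Partition} (hr : ∀ i, row r i = m - i)
    (hn : n = tri m)
    (hlay : ∀ d, d ≤ m → Even (tri m - tri d) →
      Nonempty (LayoutData (tableau r) d (pieces (topList m d) (layK m d))) ∧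
        2 * total (pieces (topList m d) (layK m d)) + tri d = n)
    (v : n.Partition) : 0 < kronecker r r v :=
  kronecker_pos_of_layouts hr hn
    (fun d hd hpar => ⟨_, (hlay d hd hpar).1, (hlay d hd hpar).2,
      hasVec_of_cover hd hn hpar (hlay d hd hpar).2
        (fun _ _ hK htop hlast => cover_of_bounds hK htop hlast) cover_zero⟩) v

end Vale.Agent.P197
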