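import Vale.Agent.P197.SymChar

/-!
# Staircase partitions have no even hooks

Consequently `chi (beta ρ)` vanishes on every permutation of even order.
-/

open Finset Equiv

namespace Vale.Agent.P197

open SymChar

variable {n : ℕ}

/-- No hook of length `r` can be removed. -/
def HookFree {N : ℕ} (a : Fin N → ℤ) (r : ℕ) : Prop :=
  ∀ i, a i - r < 0 ∨ ∃ j, j ≠ i ∧ a j = a i - r

/-- The Murnaghan–Nakayama rule kills a single orbit of length `r` when there is no `r`-hook. -/
lemma chi_sumCongr_eq_zero {α β : Type*} [Fintype α] [DecidableEq α] [Fintype β] [DecidableEq β]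
    [Nonempty β] {N : ℕ} {a : Fin N → ℤ} (ha : HookFree a (Fintype.card β)) (π : Perm α)
    (σ : Perm β) (hσ : ∀ x y, σ.SameCycle x y) : chi a (Perm.sumCongr π σ) = 0 := by
  rw [chi_cycle a π σ hσ]
  refine sum_eq_zero fun i _ => ?_
  rcases ha i with h | ⟨j, hji, hj⟩
  · exact chi_eq_zero_of_neg _ (i := i) (by simpa using h) π
  · refine chi_eq_zero_of_not_injective _ (fun hinj => hji (hinj ?_)) π
    simp [hji, hj]

/-- `chi` vanishes on a permutation with a cycle of length `r` when there is no `r`-hook. -/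
theorem chi_eq_zero_of_cycle {α : Type*} [Fintype α] [DecidableEq α] {N : ℕ} {a : Fin N → ℤ}
    (π : Perm α) {x : α} (hx : π x ≠ x) (ha : HookFree a #(π.cycleOf x).support) :
    chi a π = 0 := by
  classical
  have hmem : ∀ y, y ∈ (π.cycleOf x).support ↔ π.SameCycle x y := fun y => by
    rw [Perm.mem_support_cycleOf_iff' hx]
  have hp : ∀ y, π.SameCycle x (π y) ↔ π.SameCycle x y := fun y =>
    Perm.sameCycle_apply_right
  let e : {y // ¬π.SameCycle x y} ⊕ {y // π.SameCycle x y} ≃ α :=
    (Equiv.sumComm _ _).trans (Equiv.sumCompl _)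
  let π₁ : Perm {y // ¬π.SameCycle x y} := π.subtypePerm fun y => not_congr (hp y)
  let σ : Perm {y // π.SameCycle x y} := π.subtypePerm fun y => hp y
  have : π = e.permCongr (Perm.sumCongr π₁ σ) := by
    ext y
    obtain ⟨z, rfl⟩ := e.surjective y
    rw [Equiv.permCongr_apply, Equiv.symm_apply_apply]
    cases z <;> rfl
  rw [this, chi_permCongr]
  have hne : Nonempty {y // π.SameCycle x y} := ⟨⟨x, Perm.SameCycle.refl π x⟩⟩
  refine chi_sumCongr_eq_zero ?_ π₁ σ ?_
  · rwa [Fintype.card_of_subtype _ hmem]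
  · intro y z
    exact Perm.SameCycle.subtypePerm (y.2.symm.trans z.2)

lemma exists_even_cycle {α : Type*} [Fintype α] [DecidableEq α] (π : Perm α)
    (h : Even (orderOf π)) : ∃ x, π x ≠ x ∧ Even #(π.cycleOf x).support := by
  by_contra hc
  push Not at hc
  have hd : orderOf π ∣ π.cycleType.prod := by
    rw [← Perm.lcm_cycleType]; exact Multiset.lcm_dvd.mpr fun a ha => Multiset.dvd_prod ha
  have he : (2 : ℕ) ∣ π.cycleType.prod := (even_iff_two_dvd.mp h).trans hd
  obtain ⟨a, ha, hda⟩ := Prime.exists_mem_multiset_dvd Nat.prime_two.prime he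
  rw [Perm.cycleType_def, Multiset.mem_map] at ha
  obtain ⟨c, hc', rfl⟩ := ha
  obtain ⟨x, hx⟩ := (Perm.mem_cycleFactorsFinset_iff.mp hc').1.nonempty_support
  have h1 := Perm.cycle_is_cycleOf hx hc'
  have hxπ : π x ≠ x :=
    Perm.mem_support.mp (Perm.mem_cycleFactorsFinset_support_le hc' hx)
  refine absurd ?_ (hc x hxπ)
  rw [← h1]
  exact even_iff_two_dvd.mpr hda

/-- The beta set of a staircase has no even hook. -/
theorem hookFree_staircase {m : ℕ} {p : n.Partition} (hp : ∀ i, row p i = m - i) (hm : m ≤ n)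
    {r : ℕ} (hr : Even r) (hr0 : 0 < r) : HookFree (beta p) r := by
  intro i
  obtain ⟨s, rfl⟩ := hr
  rw [or_iff_not_imp_left]
  intro hneg
  have hi := i.isLt
  simp only [beta, hp, delta, not_lt] at hneg
  suffices hs : ∃ j : Fin n, beta p j = beta p i - (s + s : ℕ) by
    obtain ⟨j, hj⟩ := hs
    refine ⟨j, fun h => ?_, hj⟩
    subst h
    push_cast at hj
    omega
  simp only [beta, hp, delta]
  push_cast
  rcases Nat.lt_or_ge i.1 m with him | him
  · rcases Nat.lt_or_ge (i.1 + s) m with hs | hs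
    · exact ⟨⟨i + s, by omega⟩, by simp only; omega⟩
    · exact ⟨⟨2 * (i + s) - m, by omega⟩, by simp only; omega⟩
  · exact ⟨⟨i + 2 * s, by omega⟩, by simp only; omega⟩

/-- The staircase character vanishes on permutations of even order. -/
theorem chi_staircase_eq_zero {m : ℕ} {p : n.Partition} (hp : ∀ i, row p i = m - i) (hm : m ≤ n)
    (π : Perm (Fin n)) (h : Even (orderOf π)) : chi (beta p) π = 0 := by
  obtain ⟨x, hx, he⟩ := exists_even_cycle π h
  exact chi_eq_zero_of_cycle π hx (hookFree_staircase hp hm he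
    (card_pos.mpr ⟨x, Perm.mem_support_cycleOf_iff.mpr ⟨Perm.SameCycle.refl π x,
      Perm.mem_support.mpr hx⟩⟩))

end Vale.Agent.P197
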