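import Vale.Agent.P197.SymChar.Frobenius
import Vale.Agent.P197.SymChar.Orthogonal
import Vale.Agent.P197.SymChar.Irreducible
import Vale.Agent.P197.SymChar.Specht
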